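import Vale.Agent.P248.Defs2

/-!
P248: bodies invariant under the sign changes that are even in every block of coordinates.
The coordinates are labelled by `β`; the blocks are the label classes of the labels in `A`.
-/

namespace Vale.Agent.P248

/-- the number of coordinates with label `a` -/
def bsize {n : ℕ} (β : Fin n → ℕ) (a : ℕ) : ℕ := (Finset.univ.filter fun i => β i = a).card

/-- `K` is invariant under all sign changes that are even in every block with label in `A` -/
def BlockInv {n : ℕ} (β : Fin n → ℕ) (A : Finset ℕ) (K : Set (Fin n → ℝ)) : Prop :=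
  ∀ s : Fin n → ℤˣ, (∀ a ∈ A, ∏ i ∈ Finset.univ.filter (fun i => β i = a), s i = 1) →
    ∀ x ∈ K, sgn s x ∈ K

end Vale.Agent.P248
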