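import Vale.Agent.P248.Final
import Vale.Agent.P248.Defs3

/-!
P248: bodies invariant under the sign changes that are even in every block of coordinates.
The coordinates are labelled by `β`; the blocks are the label classes of the labels in `A`.
-/

namespace Vale.Agent.P248

open MeasureTheory

namespace Block

open Finset

/-- the factor of a block for the sign vector `u` -/
noncomputable def mu {n : ℕ} (β : Fin n → ℕ) (u : Fin n → ℤˣ) (a : ℕ) : ℝ :=
  if ∏ i ∈ univ.filter (fun i => β i = a), u i = 1 then 1 else 1 - 2 / (bsize β a : ℝ)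

/-- one block -/
theorem step {n : ℕ} {β : Fin n → ℕ} {A : Finset ℕ} {K : Set (Fin n → ℝ)} (hK : Convex ℝ K)
    (hs : BlockInv β A K) {a : ℕ} (ha : a ∈ A) (u : Fin n → ℤˣ) {x : Fin n → ℝ} (hx : x ∈ K) :
    (fun i => if β i = a then mu β u a * (((u i : ℤ) : ℝ) * x i) else x i) ∈ K := by
  classical
  set B := univ.filter (fun i => β i = a) with hB
  -- the sign change `u` in the block, corrected at the coordinates of a set `f`
  have key : ∀ f : Fin n → ℤˣ, (∏ i ∈ B, (u i * f i) = 1) →
      (fun i => if β i = a then ((u i * f i : ℤˣ) : ℤ) * x i else x i) ∈ K := by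
    intro f hf
    have h1 := hs (fun i => if β i = a then u i * f i else 1) (fun b hb => by
      by_cases hab : b = a
      · subst hab
        rw [← hf]
        refine prod_congr rfl fun i hi => ?_
        rw [if_pos (mem_filter.1 hi).2]
      · refine prod_eq_one fun i hi => ?_
        rw [if_neg]
        rw [(mem_filter.1 hi).2]
        exact hab) x hx
    have h2 : sgn (fun i => if β i = a then u i * f i else 1) x =
        (fun i => if β i = a then ((u i * f i : ℤˣ) : ℤ) * x i else x i) := by
      funext i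
      by_cases h : β i = a
      · simp [sgn, h]
      · simp [sgn, h]
    rw [h2] at h1
    exact h1
  by_cases hu : ∏ i ∈ B, u i = 1
  · have h1 := key 1 (by simpa using hu)
    have h2 : mu β u a = 1 := by
      unfold mu
      rw [if_pos hu]
    rw [h2]
    have h3 : (fun i => if β i = a then (1 : ℝ) * (((u i : ℤ) : ℝ) * x i) else x i) =
        (fun i => if β i = a then ((u i * (1 : Fin n → ℤˣ) i : ℤˣ) : ℤ) * x i else x i) := by
      funext i
      simp
    rw [h3]
    exact h1
  · have hu' : ∏ i ∈ B, u i = -1 := (Int.units_eq_one_or _).resolve_left hu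
    have hne : B.Nonempty := by
      by_contra hcon
      rw [not_nonempty_iff_eq_empty] at hcon
      rw [hcon] at hu
      simp at hu
    have hcard : (0 : ℝ) < (bsize β a : ℝ) := by
      have : 0 < B.card := card_pos.2 hne
      exact_mod_cast this
    have h2 : mu β u a = 1 - 2 / (bsize β a : ℝ) := by
      unfold mu
      rw [if_neg hu]
    have h1 : ∀ j ∈ B, (fun i => if β i = a then ((u i * Ratio.flip j i : ℤˣ) : ℤ) * x i
        else x i) ∈ K := by
      intro j hj
      refine key _ ?_
      rw [prod_mul_distrib, hu']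
      have h3 : ∏ i ∈ B, Ratio.flip j i = -1 := by
        rw [prod_eq_single_of_mem j hj (fun i _ hij => Ratio.flip_ne hij), Ratio.flip_same]
      rw [h3]
      norm_num
    have h4 : ∑ j ∈ B, ((1 : ℝ) / (bsize β a : ℝ)) •
        (fun i => if β i = a then ((u i * Ratio.flip j i : ℤˣ) : ℤ) * x i else x i) ∈ K := by
      refine hK.sum_mem (fun j _ => by positivity) ?_ h1
      rw [sum_const, nsmul_eq_mul]
      change (bsize β a : ℝ) * _ = 1
      field_simp
    have h5 : ∑ j ∈ B, ((1 : ℝ) / (bsize β a : ℝ)) •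
        (fun i => if β i = a then ((u i * Ratio.flip j i : ℤˣ) : ℤ) * x i else x i) =
        (fun i => if β i = a then mu β u a * (((u i : ℤ) : ℝ) * x i) else x i) := by
      funext i
      rw [Finset.sum_apply]
      by_cases h : β i = a
      · simp only [Pi.smul_apply, smul_eq_mul, if_pos h]
        have hi : i ∈ B := by
          rw [hB, mem_filter]
          exact ⟨mem_univ _, h⟩
        have h6 : ∀ j ∈ B, (1 : ℝ) / (bsize β a : ℝ) *
            ((((u i * Ratio.flip j i : ℤˣ) : ℤ) : ℝ) * x i) =
            1 / (bsize β a : ℝ) * (((u i : ℤ) : ℝ) * x i) *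
              (((Ratio.flip j i : ℤˣ) : ℤ) : ℝ) := by
          intro j _
          push_cast
          ring
        rw [sum_congr rfl h6, ← mul_sum]
        have h7 : ∑ j ∈ B, (((Ratio.flip j i : ℤˣ) : ℤ) : ℝ) = (bsize β a : ℝ) - 2 := by
          have h8 : ∀ j ∈ B, (((Ratio.flip j i : ℤˣ) : ℤ) : ℝ) =
              1 - (if j = i then 2 else 0) := by
            intro j _
            by_cases h9 : j = i
            · subst h9
              rw [Ratio.flip_same]
              norm_num
            · rw [Ratio.flip_ne (Ne.symm h9)]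
              simp [h9]
          rw [sum_congr rfl h8, sum_sub_distrib, sum_ite_eq' B i, if_pos hi, sum_const,
            nsmul_eq_mul, mul_one]
          rfl
        rw [h7, h2]
        field_simp
      · simp only [Pi.smul_apply, smul_eq_mul, if_neg h]
        rw [sum_const, nsmul_eq_mul]
        change (bsize β a : ℝ) * _ = _
        field_simp
    rw [← h5]
    exact h4

/-- all blocks -/
theorem steps {n : ℕ} {β : Fin n → ℕ} {A : Finset ℕ} {K : Set (Fin n → ℝ)} (hK : Convex ℝ K)
    (hs : BlockInv β A K) (u : Fin n → ℤˣ) {x : Fin n → ℝ} (hx : x ∈ K) :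
    ∀ A' : Finset ℕ, A' ⊆ A →
      (fun i => if β i ∈ A' then mu β u (β i) * (((u i : ℤ) : ℝ) * x i) else x i) ∈ K := by
  classical
  intro A'
  induction A' using Finset.induction_on with
  | empty =>
    intro _
    simpa using hx
  | insert a A' ha ih =>
    intro hsub
    have h1 := ih ((subset_insert _ _).trans hsub)
    have h2 := step hK hs (hsub (mem_insert_self a A')) u h1
    have h3 : (fun i => if β i = a then mu β u a * (((u i : ℤ) : ℝ) *
        (if β i ∈ A' then mu β u (β i) * (((u i : ℤ) : ℝ) * x i) else x i)) else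
        (if β i ∈ A' then mu β u (β i) * (((u i : ℤ) : ℝ) * x i) else x i)) =
        (fun i => if β i ∈ insert a A' then mu β u (β i) * (((u i : ℤ) : ℝ) * x i) else x i) := by
      funext i
      by_cases h : β i = a
      · have h4 : β i ∉ A' := by
          rw [h]
          exact ha
        have h5 : β i ∈ insert a A' := by
          rw [h]
          exact mem_insert_self a A'
        rw [if_pos h, if_neg h4, if_pos h5, h]
      · rw [if_neg h]
        by_cases h' : β i ∈ A'
        · rw [if_pos h', if_pos (mem_insert_of_mem h')]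
        · rw [if_neg h', if_neg]
          rw [mem_insert]
          tauto
    rw [h3] at h2
    exact h2

/-- the factor of the coordinate `i` -/
noncomputable def nu {n : ℕ} (β : Fin n → ℕ) (A : Finset ℕ) (u : Fin n → ℤˣ) (i : Fin n) : ℝ :=
  if β i ∈ A then mu β u (β i) else 1

theorem all {n : ℕ} {β : Fin n → ℕ} {A : Finset ℕ} {K : Set (Fin n → ℝ)} (hK : Convex ℝ K)
    (hs : BlockInv β A K) (u : Fin n → ℤˣ) {x : Fin n → ℝ} (hx : x ∈ K) :
    (fun i => nu β A u i * (((u i : ℤ) : ℝ) * x i)) ∈ K := by
  have h1 := steps hK hs u hx A Subset.rfl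
  have h2 := hs (fun i => if β i ∈ A then 1 else u i) (fun a ha => by
    refine prod_eq_one fun i hi => ?_
    rw [if_pos]
    rw [(mem_filter.1 hi).2]
    exact ha) _ h1
  have h3 : sgn (fun i => if β i ∈ A then 1 else u i)
      (fun i => if β i ∈ A then mu β u (β i) * (((u i : ℤ) : ℝ) * x i) else x i) =
      (fun i => nu β A u i * (((u i : ℤ) : ℝ) * x i)) := by
    funext i
    unfold nu
    by_cases h : β i ∈ A
    · simp [sgn, h]
    · simp [sgn, h]
  rw [h3] at h2
  exact h2

theorem mu_nonneg {n : ℕ} {β : Fin n → ℕ} (u : Fin n → ℤˣ) {a : ℕ} (h : 2 ≤ bsize β a) :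
    0 ≤ mu β u a := by
  unfold mu
  split_ifs
  · norm_num
  · have h1 : (2 : ℝ) ≤ (bsize β a : ℝ) := by exact_mod_cast h
    have h2 : 2 / (bsize β a : ℝ) ≤ 1 := by
      rw [div_le_one (by linarith)]
      exact h1
    linarith

/-- `1 - 1/|B|` for the coordinates of a block `B`, `1` for the others -/
noncomputable def lam {n : ℕ} (β : Fin n → ℕ) (A : Finset ℕ) (i : Fin n) : ℝ :=
  if β i ∈ A then 1 - 1 / (bsize β (β i) : ℝ) else 1

theorem lam_nonneg {n : ℕ} {β : Fin n → ℕ} {A : Finset ℕ}
    (hB : ∀ i, β i ∈ A → 2 ≤ bsize β (β i)) (i : Fin n) : 0 ≤ lam β A i := by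
  unfold lam
  split_ifs with h
  · have h1 : (2 : ℝ) ≤ (bsize β (β i) : ℝ) := by exact_mod_cast hB i h
    have h2 : 1 / (bsize β (β i) : ℝ) ≤ 1 := by
      rw [div_le_one (by linarith)]
      linarith
    linarith
  · norm_num

theorem prod_split {n : ℕ} {M : Type*} [CommMonoid M] (β : Fin (n + 1) → ℕ) (i : Fin (n + 1))
    (a : ℕ) (f : Fin (n + 1) → M) :
    ∏ k ∈ univ.filter (fun k => β k = a), f k =
      (if β i = a then f i else 1) *
        ∏ j ∈ univ.filter (fun j => β (i.succAbove j) = a), f (i.succAbove j) := by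
  rw [prod_filter, prod_filter, Fin.prod_univ_succAbove _ i]

theorem bsize_succ {n : ℕ} (β : Fin (n + 1) → ℕ) (i : Fin (n + 1)) {a : ℕ} (h : β i ≠ a) :
    bsize (fun j => β (i.succAbove j)) a = bsize β a := by
  unfold bsize
  rw [card_filter, card_filter, Fin.sum_univ_succAbove _ i, if_neg h, zero_add]

/-- the two signs of the coordinate `i` -/
theorem nu_pair {n : ℕ} (β : Fin (n + 1) → ℕ) (A : Finset ℕ) (s : Fin (n + 1) → ℤˣ)
    (i : Fin (n + 1)) (t : Fin n → ℤˣ) :
    nu β A (fun k => s k * (i.insertNth (1 : ℤˣ) t : Fin (n + 1) → ℤˣ) k) i +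
      nu β A (fun k => s k * (i.insertNth (-1 : ℤˣ) t : Fin (n + 1) → ℤˣ) k) i =
      2 * lam β A i := by
  unfold nu lam
  by_cases h : β i ∈ A
  · rw [if_pos h, if_pos h, if_pos h]
    unfold mu
    rw [prod_split β i (β i), prod_split β i (β i)]
    simp only [if_true, Fin.insertNth_apply_same, Fin.insertNth_apply_succAbove]
    set P := ∏ j ∈ univ.filter (fun j => β (i.succAbove j) = β i), s (i.succAbove j) * t j
    rcases Int.units_eq_one_or (s i) with h1 | h1 <;> rcases Int.units_eq_one_or P with h2 | h2 <;>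
      rw [h1, h2] <;> norm_num <;> ring
  · rw [if_neg h, if_neg h, if_neg h]
    norm_num

/-- the key inequality -/
theorem key {n : ℕ} {β : Fin (n + 1) → ℕ} {A : Finset ℕ} {K : Set (Fin (n + 1) → ℝ)}
    (hK : Convex ℝ K) (hc : IsCompact K) (h0 : (0 : Fin (n + 1) → ℝ) ∈ interior K)
    (hs : BlockInv β A K)
    (hB : ∀ i, β i ∈ A → 2 ≤ bsize β (β i)) {x : Fin (n + 1) → ℝ} (hx : x ∈ K) :
    ∑ i, |x i| * (2 * lam β A i * volume.real (hsec i K)) ≤
      ((n : ℝ) + 1) * volume.real K := by
  obtain ⟨s, hxs⟩ := Core.exists_orth x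
  have habs : ∀ i, ((s i : ℤ) : ℝ) * x i = |x i| := by
    intro i
    have h1 := hxs i
    rcases Int.units_eq_one_or (s i) with h | h
    · rw [h] at h1 ⊢
      norm_num at h1 ⊢
      rw [abs_of_nonneg h1]
    · rw [h] at h1 ⊢
      norm_num at h1 ⊢
      rw [abs_of_nonpos h1]
  have hnu : ∀ (u : Fin (n + 1) → ℤˣ) i, 0 ≤ nu β A u i := by
    intro u i
    unfold nu
    split_ifs with h
    · exact mu_nonneg u (hB i h)
    · norm_num
  have h1 : ∀ t : Fin (n + 1) → ℤˣ,
      ∑ i, |x i| * (nu β A (fun k => s k * t k) i *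
        volume.real (hsec i K ∩ orth (fun j => t (i.succAbove j)))) ≤
      ((n : ℝ) + 1) * volume.real (K ∩ orth t) := by
    intro t
    have h2 := all hK hs (fun k => s k * t k) hx
    have h3 : (fun i => nu β A (fun k => s k * t k) i * (((s i * t i : ℤˣ) : ℤ) * x i)) =
        (fun i => ((t i : ℤ) : ℝ) * (nu β A (fun k => s k * t k) i * |x i|)) := by
      funext i
      rw [← habs i]
      push_cast
      ring
    have h2' : (fun i => ((t i : ℤ) : ℝ) * (nu β A (fun k => s k * t k) i * |x i|)) ∈ K := by
      rw [← h3]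
      exact h2
    have hsq : ∀ i, ((t i : ℤ) : ℝ) * ((t i : ℤ) : ℝ) = 1 := by
      intro i
      rcases Int.units_eq_one_or (t i) with h | h <;> rw [h] <;> norm_num
    have h4 : (fun i => ((t i : ℤ) : ℝ) * (nu β A (fun k => s k * t k) i * |x i|)) ∈ orth t := by
      intro i
      have h5 : ((t i : ℤ) : ℝ) * (((t i : ℤ) : ℝ) * (nu β A (fun k => s k * t k) i * |x i|)) =
          nu β A (fun k => s k * t k) i * |x i| := by
        rw [← mul_assoc, hsq, one_mul]
      change 0 ≤ ((t i : ℤ) : ℝ) * (((t i : ℤ) : ℝ) * (nu β A (fun k => s k * t k) i * |x i|))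
      rw [h5]
      exact mul_nonneg (hnu _ i) (abs_nonneg _)
    have h6 := Core.cone_orth' hK hc t h2' h4
    refine le_trans (le_of_eq ?_) h6
    refine sum_congr rfl fun i _ => ?_
    have h7 : |((t i : ℤ) : ℝ) * (nu β A (fun k => s k * t k) i * |x i|)| =
        nu β A (fun k => s k * t k) i * |x i| := by
      rw [abs_mul]
      have h8 : |((t i : ℤ) : ℝ)| = 1 := by
        rcases Int.units_eq_one_or (t i) with h | h <;> rw [h] <;> norm_num
      rw [h8, one_mul, abs_of_nonneg (mul_nonneg (hnu _ i) (abs_nonneg _))]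
    rw [h7]
    ring
  have h9 := sum_le_sum (fun t (_ : t ∈ (univ : Finset (Fin (n + 1) → ℤˣ))) => h1 t)
  rw [← mul_sum, orth_sum hc, sum_comm] at h9
  refine le_trans (le_of_eq ?_) h9
  refine sum_congr rfl fun i _ => ?_
  rw [← mul_sum]
  congr 1
  have hfi := (hsec_facts hK hc h0 i).2.1
  rw [← orth_sum hfi, mul_sum]
  rw [← Equiv.sum_comp (Fin.insertNthEquiv (fun _ : Fin (n + 1) => ℤˣ) i), Fintype.sum_prod_type,
    sum_comm]
  refine sum_congr rfl fun t _ => ?_
  have hu : (univ : Finset ℤˣ) = {1, -1} := rfl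
  rw [hu, sum_pair (by decide)]
  simp only [Fin.insertNthEquiv_apply, Fin.insertNth_apply_succAbove]
  rw [← add_mul, nu_pair]

end Block

/-- one step of the induction -/
theorem core_block {n : ℕ} {β : Fin (n + 1) → ℕ} {A : Finset ℕ} {K : Set (Fin (n + 1) → ℝ)}
    (hK : Convex ℝ K) (hc : IsCompact K) (h0 : (0 : Fin (n + 1) → ℝ) ∈ interior K)
    (hs : BlockInv β A K) (hB : ∀ i, β i ∈ A → 2 ≤ bsize β (β i)) :
    4 * ∑ i, Block.lam β A i * (volume.real (hsec i K) * volume.real (polar (hsec i K))) ≤
      ((n : ℝ) + 1) ^ 2 * (volume.real K * volume.real (polar K)) := by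
  have hn : (0 : ℝ) < (n : ℝ) + 1 := by positivity
  have hV : 0 < volume.real K := Core.vol_pos hc h0
  set c : Fin (n + 1) → ℝ := fun i =>
    2 * Block.lam β A i * volume.real (hsec i K) / (((n : ℝ) + 1) * volume.real K) with hcdef
  have hl := Block.lam_nonneg hB
  have hc0 : ∀ i, 0 ≤ c i := fun i =>
    div_nonneg (mul_nonneg (mul_nonneg (by norm_num) (hl i)) measureReal_nonneg) (by positivity)
  have hb : ∀ y : Fin (n + 1) → ℝ, (∀ i, |y i| ≤ c i) → y ∈ polar K := by
    intro y hy x hx
    have h1 := Block.key hK hc h0 hs hB hx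
    have h3 : ∑ i, x i * y i ≤ ∑ i, |x i| * c i := by
      refine Finset.sum_le_sum fun i _ => ?_
      calc x i * y i ≤ |x i * y i| := le_abs_self _
        _ = |x i| * |y i| := abs_mul _ _
        _ ≤ |x i| * c i := mul_le_mul_of_nonneg_left (hy i) (abs_nonneg _)
    have h4 : ∑ i, |x i| * c i =
        (∑ i, |x i| * (2 * Block.lam β A i * volume.real (hsec i K))) /
          (((n : ℝ) + 1) * volume.real K) := by
      rw [Finset.sum_div]
      refine Finset.sum_congr rfl fun i _ => ?_
      rw [hcdef]
      ring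
    have h5 : (∑ i, |x i| * (2 * Block.lam β A i * volume.real (hsec i K))) /
        (((n : ℝ) + 1) * volume.real K) ≤ 1 := (div_le_one (by positivity)).2 h1
    linarith
  have hpc := polar_compact h0
  have hbox := box_bound (polar_convex K) hpc hc0 hb
  have hle : ∀ i, volume.real (polar (hsec i K)) ≤ volume.real (proj i (polar K)) := fun i =>
    measureReal_mono (polar_hsec hK h0 i) (Core.proj_compact hpc i).measure_lt_top.ne
  have h6 : 4 * ∑ i, Block.lam β A i *
      (volume.real (hsec i K) * volume.real (polar (hsec i K))) ≤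
      ((n : ℝ) + 1) * volume.real K * ∑ i, 2 * c i * volume.real (proj i (polar K)) := by
    rw [Finset.mul_sum, Finset.mul_sum]
    refine Finset.sum_le_sum fun i _ => ?_
    have h7 : ((n : ℝ) + 1) * volume.real K * (2 * c i * volume.real (proj i (polar K))) =
        4 * (Block.lam β A i * (volume.real (hsec i K) * volume.real (proj i (polar K)))) := by
      rw [hcdef]
      field_simp
      ring
    rw [h7]
    exact mul_le_mul_of_nonneg_left (mul_le_mul_of_nonneg_left
      (mul_le_mul_of_nonneg_left (hle i) measureReal_nonneg) (hl i)) (by norm_num)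
  calc 4 * ∑ i, Block.lam β A i * (volume.real (hsec i K) * volume.real (polar (hsec i K)))
      ≤ ((n : ℝ) + 1) * volume.real K * ∑ i, 2 * c i * volume.real (proj i (polar K)) := h6
    _ ≤ ((n : ℝ) + 1) * volume.real K * (((n : ℝ) + 1) * volume.real (polar K)) :=
        mul_le_mul_of_nonneg_left hbox (by positivity)
    _ = _ := by ring

namespace Block

/-- sections of block invariant bodies -/
theorem hsec_inv {n : ℕ} {β : Fin (n + 1) → ℕ} {A : Finset ℕ} {K : Set (Fin (n + 1) → ℝ)}
    (hs : BlockInv β A K) (i : Fin (n + 1)) :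
    BlockInv (fun j => β (i.succAbove j)) (A.erase (β i)) (hsec i K) := by
  intro s h x hx
  set e : ℤˣ := ∏ j ∈ Finset.univ.filter (fun j => β (i.succAbove j) = β i), s j with he
  have h1 := hs (i.insertNth e s : Fin (n + 1) → ℤˣ) (fun a ha => by
    rw [prod_split β i a]
    simp only [Fin.insertNth_apply_same, Fin.insertNth_apply_succAbove]
    by_cases hia : β i = a
    · rw [if_pos hia, ← hia, ← he]
      exact Int.units_mul_self _
    · rw [if_neg hia, one_mul]
      exact h a (Finset.mem_erase.2 ⟨Ne.symm hia, ha⟩)) _ hx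
  have h3 : sgn (i.insertNth e s : Fin (n + 1) → ℤˣ)
      (i.insertNth (0 : ℝ) x : Fin (n + 1) → ℝ) =
      (i.insertNth (0 : ℝ) (sgn s x) : Fin (n + 1) → ℝ) := by
    funext j
    refine Fin.succAboveCases i ?_ (fun k => ?_) j
    · simp [sgn]
    · simp [sgn]
  rw [h3] at h1
  exact h1

/-- the product over the blocks -/
noncomputable def fac {n : ℕ} (β : Fin n → ℕ) (A : Finset ℕ) : ℝ :=
  ∏ a ∈ A, (1 - 1 / (bsize β a : ℝ))

theorem fac_succ {n : ℕ} (β : Fin (n + 1) → ℕ) (A : Finset ℕ) (i : Fin (n + 1)) :
    lam β A i * fac (fun j => β (i.succAbove j)) (A.erase (β i)) = fac β A := by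
  have h1 : fac (fun j => β (i.succAbove j)) (A.erase (β i)) =
      ∏ a ∈ A.erase (β i), (1 - 1 / (bsize β a : ℝ)) := by
    unfold fac
    refine Finset.prod_congr rfl fun a ha => ?_
    rw [bsize_succ β i (Finset.ne_of_mem_erase ha).symm]
  rw [h1]
  unfold lam fac
  by_cases h : β i ∈ A
  · rw [if_pos h, Finset.mul_prod_erase A (fun a => 1 - 1 / (bsize β a : ℝ)) h]
  · rw [if_neg h, Finset.erase_eq_of_notMem h, one_mul]

end Block

/-- the block theorem for the polar at the origin -/
theorem block_bound {n : ℕ} {β : Fin n → ℕ} {A : Finset ℕ} {K : Set (Fin n → ℝ)}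
    (hK : Convex ℝ K) (hc : IsCompact K) (h0 : (0 : Fin n → ℝ) ∈ interior K)
    (hs : BlockInv β A K) (hB : ∀ i, β i ∈ A → 2 ≤ bsize β (β i)) :
    Block.fac β A * ((4 : ℝ) ^ n / (n.factorial : ℝ)) ≤
      volume.real K * volume.real (polar K) := by
  induction n generalizing A with
  | zero =>
    have h1 := equi_bound hK hc h0 (by
      intro k e s t
      have hk : k = 0 := by
        have := Fintype.card_le_of_embedding e
        simpa using this
      subst hk
      have : s = t := Subsingleton.elim _ _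
      rw [this])
    have h2 : Block.fac β A = 1 := by
      unfold Block.fac
      refine Finset.prod_eq_one fun a _ => ?_
      have : bsize β a = 0 := by
        unfold bsize
        simp
      rw [this]
      simp
    rw [h2, one_mul]
    exact h1
  | succ n ih =>
    have hf := fun i => hsec_facts hK hc h0 i
    have hI : ∀ i, Block.fac (fun j => β (i.succAbove j)) (A.erase (β i)) *
        ((4 : ℝ) ^ n / (n.factorial : ℝ)) ≤
        volume.real (hsec i K) * volume.real (polar (hsec i K)) := fun i =>
      ih (hf i).1 (hf i).2.1 (hf i).2.2 (Block.hsec_inv hs i) (fun j hj => by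
        have hj' := Finset.mem_erase.1 hj
        rw [Block.bsize_succ β i (Ne.symm hj'.1)]
        exact hB _ hj'.2)
    have h1 := core_block hK hc h0 hs hB
    have h2 : 4 * ∑ _i : Fin (n + 1), Block.fac β A * ((4 : ℝ) ^ n / (n.factorial : ℝ)) ≤
        4 * ∑ i, Block.lam β A i *
          (volume.real (hsec i K) * volume.real (polar (hsec i K))) := by
      refine mul_le_mul_of_nonneg_left (Finset.sum_le_sum fun i _ => ?_) (by norm_num)
      rw [← Block.fac_succ β A i, mul_assoc]
      exact mul_le_mul_of_nonneg_left (hI i) (Block.lam_nonneg hB i)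
    have h4 := h2.trans h1
    rw [Finset.sum_const, Finset.card_univ, Fintype.card_fin, nsmul_eq_mul] at h4
    push_cast at h4
    have hn : (0 : ℝ) < (n : ℝ) + 1 := by positivity
    have hfac : (0 : ℝ) < (n.factorial : ℝ) := by exact_mod_cast n.factorial_pos
    have h5 : (((n + 1).factorial : ℕ) : ℝ) = ((n : ℝ) + 1) * (n.factorial : ℝ) := by
      rw [Nat.factorial_succ]
      push_cast
      ring
    rw [h5]
    have h6 : Block.fac β A * (4 ^ (n + 1) / (((n : ℝ) + 1) * (n.factorial : ℝ))) =
        (4 * (((n : ℝ) + 1) * (Block.fac β A * (4 ^ n / (n.factorial : ℝ))))) /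
          ((n : ℝ) + 1) ^ 2 := by
      field_simp
      ring
    rw [h6, div_le_iff₀ (by positivity)]
    linarith

/-- the block theorem -/
theorem final_block {n : ℕ} {β : Fin n → ℕ} {A : Finset ℕ} {K : Set (Fin n → ℝ)} (hK : Body K)
    (hs : BlockInv β A K) (hB : ∀ i, β i ∈ A → 2 ≤ bsize β (β i)) :
    Block.fac β A * ((4 : ℝ) ^ n / (n.factorial : ℝ)) ≤ volProd K := by
  have h1 : ∀ i, ∃ s : Fin n → ℤˣ, s i = -1 ∧ ∀ x ∈ K, sgn s x ∈ K := by
    intro i
    by_cases hi : β i ∈ A
    · obtain ⟨j, hj, hji⟩ : ∃ j, β j = β i ∧ j ≠ i := by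
        have h2 : 1 < (Finset.univ.filter fun j => β j = β i).card := hB i hi
        obtain ⟨j, hj, hji⟩ := Finset.exists_mem_ne h2 i
        exact ⟨j, (Finset.mem_filter.1 hj).2, hji⟩
      refine ⟨fun k => Ratio.flip i k * Ratio.flip j k, ?_, hs _ ?_⟩
      · change Ratio.flip i i * Ratio.flip j i = -1
        rw [Ratio.flip_same, Ratio.flip_ne hji.symm]
        norm_num
      · intro a ha
        rw [Finset.prod_mul_distrib]
        have h3 : ∀ l : Fin n, ∏ k ∈ Finset.univ.filter (fun k => β k = a), Ratio.flip l k =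
            if β l = a then -1 else 1 := by
          intro l
          by_cases hl : β l = a
          · rw [if_pos hl, Finset.prod_eq_single_of_mem l
              (Finset.mem_filter.2 ⟨Finset.mem_univ _, hl⟩)
              (fun k _ hk => Ratio.flip_ne hk), Ratio.flip_same]
          · rw [if_neg hl]
            refine Finset.prod_eq_one fun k hk => Ratio.flip_ne ?_
            rintro rfl
            exact hl (Finset.mem_filter.1 hk).2
        rw [h3, h3, hj]
        split_ifs <;> norm_num
    · refine ⟨Ratio.flip i, Ratio.flip_same i, hs _ ?_⟩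
      intro a ha
      refine Finset.prod_eq_one fun k hk => Ratio.flip_ne ?_
      rintro rfl
      rw [(Finset.mem_filter.1 hk).2] at hi
      exact hi ha
  exact Final.le_volProd hK h1 (block_bound hK.convex hK.compact
    (zero_interior hK.convex hK.solid h1) hs hB)

end Vale.Agent.P248
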