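import Mathlib

/-!
# P248: a numerical inequality
-/

namespace Vale.Agent.P248

namespace Num2

/-- `(1 + 1 / m) ^ (m + 1)` -/
noncomputable def a (m : ℕ) : ℝ := (((m : ℝ) + 1) / m) ^ (m + 1)

theorem a_pos {m : ℕ} (hm : 1 ≤ m) : 0 < a m := by
  have h : (0 : ℝ) < m := by exact_mod_cast hm
  unfold a
  positivity

theorem a_succ_lt {m : ℕ} (hm : 1 ≤ m) : a (m + 1) < a m := by
  have h0 : (0 : ℝ) < m := by exact_mod_cast hm
  set t : ℝ := (m : ℝ) with ht
  have hb := one_add_mul_le_pow (a := 1 / (t * (t + 2)))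
    (by have : (0 : ℝ) < 1 / (t * (t + 2)) := by positivity
        linarith) (m + 1)
  have e1 : a m = ((t + 1) / t) ^ (m + 1) := rfl
  have e2 : a (m + 1) = ((t + 2) / (t + 1)) ^ (m + 1) * ((t + 2) / (t + 1)) := by
    unfold a
    rw [pow_succ]
    push_cast
    rw [← ht]
    congr 2 <;> ring
  have e3 : (t + 1) / t = (1 + 1 / (t * (t + 2))) * ((t + 2) / (t + 1)) := by
    field_simp
    ring
  rw [e1, e2, e3, mul_pow, mul_comm ((1 + 1 / (t * (t + 2))) ^ (m + 1))]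
  refine mul_lt_mul_of_pos_left ?_ (by positivity)
  refine lt_of_lt_of_le ?_ hb
  push_cast
  rw [← ht, div_lt_iff₀ (by positivity)]
  have h1 : (1 + (t + 1) * (1 / (t * (t + 2)))) * (t + 1)
      = (t ^ 3 + 4 * t ^ 2 + 4 * t + 1) / (t * (t + 2)) := by
    field_simp
    ring
  rw [h1, lt_div_iff₀ (by positivity)]
  nlinarith

theorem a_le {k m : ℕ} (hk : 1 ≤ k) (h : k ≤ m) : a m ≤ a k := by
  induction m, h using Nat.le_induction with
  | base => exact le_rfl
  | succ m hkm ih => exact (a_succ_lt (hk.trans hkm)).le.trans ih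

theorem a_one : a 1 = 4 := by norm_num [a]

theorem a_two : a 2 = 27 / 8 := by norm_num [a]

theorem a_three : a 3 = 256 / 81 := by norm_num [a]

theorem pow_eq (n : ℕ) : ((n : ℝ) + 2) ^ (n + 2) =
    a (n + 1) * (((n : ℝ) + 1) * ((n : ℝ) + 1) ^ (n + 1)) := by
  unfold a
  push_cast
  have h : (0 : ℝ) < (n : ℝ) + 1 := by positivity
  rw [div_pow, show (n : ℝ) + 1 + 1 = n + 2 by ring, ← pow_succ']
  field_simp

theorem step (n : ℕ) : ((n : ℝ) + 4) ^ (n + 4) =
    a (n + 1) * a (n + 2) * a (n + 3) *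
      (((n : ℝ) + 1) * (n + 2) * (n + 3) * ((n : ℝ) + 1) ^ (n + 1)) := by
  have h1 := pow_eq n
  have h2 := pow_eq (n + 1)
  have h3 := pow_eq (n + 2)
  push_cast at h2 h3
  rw [show (n : ℝ) + 1 + 2 = n + 3 by ring, show (n : ℝ) + 1 + 1 = n + 2 by ring] at h2
  rw [show (n : ℝ) + 2 + 2 = n + 4 by ring, show (n : ℝ) + 2 + 1 = n + 3 by ring] at h3
  rw [show n + 4 = n + 2 + 2 by ring, h3, show n + 2 + 1 = n + 1 + 2 by ring, h2,
    show n + 1 + 1 = n + 2 by ring, h1]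
  ring

theorem prod_le (n : ℕ) : a (n + 1) * a (n + 2) * a (n + 3) ≤ 2 / 3 * 64 := by
  have h1 := a_le le_rfl (show 1 ≤ n + 1 by omega)
  have h2 := a_le (show 1 ≤ 2 by omega) (show 2 ≤ n + 2 by omega)
  have h3 := a_le (show 1 ≤ 3 by omega) (show 3 ≤ n + 3 by omega)
  rw [a_one] at h1
  rw [a_two] at h2
  rw [a_three] at h3
  have p1 := a_pos (show 1 ≤ n + 1 by omega)
  have p2 := a_pos (show 1 ≤ n + 2 by omega)
  have p3 := a_pos (show 1 ≤ n + 3 by omega)
  calc a (n + 1) * a (n + 2) * a (n + 3) ≤ 4 * (27 / 8) * (256 / 81) := by gcongr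
    _ = 2 / 3 * 64 := by norm_num

theorem prod_lt {n : ℕ} (hn : 1 ≤ n) : a (n + 1) * a (n + 2) * a (n + 3) < 2 / 3 * 64 := by
  have h1 : a (n + 1) < 4 := by
    have h := a_le (show 1 ≤ 2 by omega) (show 2 ≤ n + 1 by omega)
    rw [a_two] at h
    linarith
  have h2 := a_le (show 1 ≤ 2 by omega) (show 2 ≤ n + 2 by omega)
  have h3 := a_le (show 1 ≤ 3 by omega) (show 3 ≤ n + 3 by omega)
  rw [a_two] at h2
  rw [a_three] at h3
  have p1 := a_pos (show 1 ≤ n + 1 by omega)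
  have p2 := a_pos (show 1 ≤ n + 2 by omega)
  have p3 := a_pos (show 1 ≤ n + 3 by omega)
  calc a (n + 1) * a (n + 2) * a (n + 3) < 4 * a (n + 2) * a (n + 3) := by gcongr
    _ ≤ 4 * (27 / 8) * (256 / 81) := by gcongr
    _ = 2 / 3 * 64 := by norm_num

theorem fac3 (n : ℕ) : ((n + 3).factorial : ℝ) =
    ((n : ℝ) + 1) * (n + 2) * (n + 3) * n.factorial := by
  rw [Nat.factorial_succ, Nat.factorial_succ, Nat.factorial_succ]
  push_cast
  ring

/-- the inequality without fractions -/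
theorem main : ∀ n : ℕ, ((n : ℝ) + 1) ^ (n + 1) ≤ (2 / 3) ^ (n / 3) * (4 ^ n * n.factorial)
  | 0 => by norm_num
  | 1 => by norm_num
  | 2 => by norm_num [Nat.factorial]
  | n + 3 => by
    have ih := main n
    have e1 : (n + 3) / 3 = n / 3 + 1 := by omega
    rw [e1, fac3]
    push_cast
    rw [show (n : ℝ) + 3 + 1 = n + 4 by ring, show n + 3 + 1 = n + 4 by ring, step]
    calc a (n + 1) * a (n + 2) * a (n + 3) *
          (((n : ℝ) + 1) * (n + 2) * (n + 3) * ((n : ℝ) + 1) ^ (n + 1))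
        ≤ 2 / 3 * 64 * (((n : ℝ) + 1) * (n + 2) * (n + 3) *
          ((2 / 3) ^ (n / 3) * (4 ^ n * n.factorial))) := by
          refine mul_le_mul (prod_le n) ?_ (by positivity) (by norm_num)
          exact mul_le_mul_of_nonneg_left ih (by positivity)
      _ = _ := by ring

theorem main_lt : ∀ n : ℕ, 4 ≤ n →
    ((n : ℝ) + 1) ^ (n + 1) < (2 / 3) ^ (n / 3) * (4 ^ n * n.factorial)
  | 0, h => by omega
  | 1, h => by omega
  | 2, h => by omega
  | n + 3, h => by
    have ih := main n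
    have e1 : (n + 3) / 3 = n / 3 + 1 := by omega
    rw [e1, fac3]
    push_cast
    rw [show (n : ℝ) + 3 + 1 = n + 4 by ring, show n + 3 + 1 = n + 4 by ring, step]
    calc a (n + 1) * a (n + 2) * a (n + 3) *
          (((n : ℝ) + 1) * (n + 2) * (n + 3) * ((n : ℝ) + 1) ^ (n + 1))
        < 2 / 3 * 64 * (((n : ℝ) + 1) * (n + 2) * (n + 3) * ((n : ℝ) + 1) ^ (n + 1)) :=
          mul_lt_mul_of_pos_right (prod_lt (by omega)) (by positivity)
      _ ≤ 2 / 3 * 64 * (((n : ℝ) + 1) * (n + 2) * (n + 3) *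
          ((2 / 3) ^ (n / 3) * (4 ^ n * n.factorial))) := by
          refine mul_le_mul_of_nonneg_left ?_ (by norm_num)
          exact mul_le_mul_of_nonneg_left ih (by positivity)
      _ = _ := by ring

end Num2

theorem num2 (n : ℕ) : ((n : ℝ) + 1) ^ (n + 1) / ((n.factorial : ℝ)) ^ 2 ≤
    (2 / 3) ^ (n / 3) * (4 ^ n / (n.factorial : ℝ)) := by
  have hfac : (0 : ℝ) < (n.factorial : ℝ) := by exact_mod_cast n.factorial_pos
  rw [div_le_iff₀ (by positivity)]
  refine (Num2.main n).trans (le_of_eq ?_)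
  field_simp

theorem num2_lt {n : ℕ} (hn : 4 ≤ n) : ((n : ℝ) + 1) ^ (n + 1) / ((n.factorial : ℝ)) ^ 2 <
    (2 / 3) ^ (n / 3) * (4 ^ n / (n.factorial : ℝ)) := by
  have hfac : (0 : ℝ) < (n.factorial : ℝ) := by exact_mod_cast n.factorial_pos
  rw [div_lt_iff₀ (by positivity)]
  refine lt_of_lt_of_eq (Num2.main_lt n hn) ?_
  field_simp

end Vale.Agent.P248
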