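import Vale.Agent.P248.Block
import Vale.Agent.P248.Num2

/-! P248: the block theorem, numerical consequences. -/

namespace Vale.Agent.P248

open MeasureTheory

namespace Block

open Finset

/-- there are at most `n/3` blocks of size at least 3, so the factor is at least `(2/3)^(n/3)` -/
theorem fac_ge {n : ℕ} (β : Fin n → ℕ) (A : Finset ℕ) (h : ∀ a ∈ A, 3 ≤ bsize β a) :
    (2 / 3 : ℝ) ^ (n / 3) ≤ fac β A := by
  have h1 : A.card ≤ n / 3 := by
    rw [Nat.le_div_iff_mul_le (by norm_num)]
    have h2 : ∑ a ∈ A, bsize β a ≤ n := by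
      have h3 : ∑ a ∈ A, bsize β a =
          (univ.filter fun i : Fin n => β i ∈ A).card := by
        unfold bsize
        rw [← card_biUnion]
        · congr 1
          ext i
          simp
        · intro a _ b _ hab
          rw [Function.onFun, disjoint_left]
          intro i hi hj
          exact hab ((mem_filter.1 hi).2.symm.trans (mem_filter.1 hj).2)
      rw [h3]
      exact (card_le_univ _).trans (by simp)
    calc A.card * 3 = ∑ _a ∈ A, 3 := by rw [sum_const, smul_eq_mul]
      _ ≤ ∑ a ∈ A, bsize β a := sum_le_sum fun a ha => h a ha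
      _ ≤ n := h2
  calc (2 / 3 : ℝ) ^ (n / 3) ≤ (2 / 3 : ℝ) ^ A.card :=
        pow_le_pow_of_le_one (by norm_num) (by norm_num) h1
    _ = ∏ _a ∈ A, (2 / 3 : ℝ) := by rw [prod_const]
    _ ≤ fac β A := by
        unfold fac
        refine prod_le_prod (fun _ _ => by norm_num) fun a ha => ?_
        have h3 : (3 : ℝ) ≤ (bsize β a : ℝ) := by exact_mod_cast h a ha
        have h4 : 1 / (bsize β a : ℝ) ≤ 1 / 3 :=
          one_div_le_one_div_of_le (by norm_num) h3
        linarith

end Block

/-- the general Mahler inequality for the block classes with blocks of size at least 3 -/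
theorem final_block_mahler {n : ℕ} {β : Fin n → ℕ} {A : Finset ℕ} {K : Set (Fin n → ℝ)}
    (hK : Body K) (hs : BlockInv β A K) (hB : ∀ a ∈ A, 3 ≤ bsize β a) :
    ((n : ℝ) + 1) ^ (n + 1) / ((n.factorial : ℝ)) ^ 2 ≤ volProd K := by
  have h1 := final_block hK hs (fun i hi => (by norm_num : 2 ≤ 3).trans (hB _ hi))
  have h2 := Block.fac_ge β A hB
  exact (num2 n).trans ((mul_le_mul_of_nonneg_right h2 (by positivity)).trans h1)

theorem final_block_mahler_lt {n : ℕ} (hn : 4 ≤ n) {β : Fin n → ℕ} {A : Finset ℕ}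
    {K : Set (Fin n → ℝ)} (hK : Body K) (hs : BlockInv β A K) (hB : ∀ a ∈ A, 3 ≤ bsize β a) :
    ((n : ℝ) + 1) ^ (n + 1) / ((n.factorial : ℝ)) ^ 2 < volProd K := by
  have h1 := final_block hK hs (fun i hi => (by norm_num : 2 ≤ 3).trans (hB _ hi))
  have h2 := Block.fac_ge β A hB
  exact lt_of_lt_of_le (num2_lt hn) ((mul_le_mul_of_nonneg_right h2 (by positivity)).trans h1)

/-- even sign changes: one block -/
theorem final_even_sharp {n : ℕ} (hn : 2 ≤ n) {K : Set (Fin n → ℝ)} (hK : Body K)
    (hs : EvenInv K) : (1 - 1 / (n : ℝ)) * ((4 : ℝ) ^ n / (n.factorial : ℝ)) ≤ volProd K := by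
  have hb : bsize (fun _ : Fin n => 0) 0 = n := by
    unfold bsize
    simp
  have h1 := final_block (β := fun _ : Fin n => 0) (A := {0}) hK (by
    intro s h x hx
    refine hs s ?_ x hx
    have := h 0 (Finset.mem_singleton_self 0)
    simpa using this) (by
    intro i _
    rw [hb]
    exact hn)
  unfold Block.fac at h1
  rw [Finset.prod_singleton, hb] at h1
  exact h1

end Vale.Agent.P248
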