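import Vale.Agent.P248.Fat

/-!
P248, row R3: the box inequality.  If the box with half side lengths `c i` is contained in the
convex body `L`, then the sum over `i` of `2 c i` times the volume of the projection of `L` along
the coordinate `i` is at most the dimension times the volume of `L`.
-/

namespace Vale.Agent.P248

open MeasureTheory Set
open scoped Pointwise ENNReal

namespace Box

variable {n : ℕ}

theorem proj_mono (i : Fin (n + 1)) {L M : Set (Fin (n + 1) → ℝ)} (h : L ⊆ M) :
    proj i L ⊆ proj i M := fun _ ⟨t, ht⟩ => ⟨t, h ht⟩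

/-- iterated fattening -/
theorem iter {L : Set (Fin (n + 1) → ℝ)} (hL : Convex ℝ L) (hc : IsCompact L)
    {c : Fin (n + 1) → ℝ} (h0 : ∀ i, 0 ≤ c i) {t : ℝ} (ht : 0 ≤ t) (S : Finset (Fin (n + 1))) :
    ∃ M : Set (Fin (n + 1) → ℝ), IsCompact M ∧ Convex ℝ M ∧ L ⊆ M ∧
      (∀ y ∈ M, ∃ v : Fin (n + 1) → ℝ, (∀ i, |v i| ≤ t * c i) ∧ (∀ i, i ∉ S → v i = 0) ∧
        y + v ∈ L) ∧
      volume.real L + ∑ i ∈ S, 2 * (t * c i) * volume.real (proj i L) ≤ volume.real M := by
  classical
  induction S using Finset.induction_on with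
  | empty =>
    refine ⟨L, hc, hL, le_rfl, fun y hy => ⟨0, fun i => ?_, fun i _ => rfl, by simpa using hy⟩, ?_⟩
    · simpa using mul_nonneg ht (h0 i)
    · simp
  | insert a S ha ih =>
    obtain ⟨M, hMc, hMv, hLM, hy, hv⟩ := ih
    obtain ⟨M', hc', hv', hMM', hy', hvol⟩ := fat hMv hMc a (mul_nonneg ht (h0 a))
    refine ⟨M', hc', hv', hLM.trans hMM', ?_, ?_⟩
    · intro y hyM
      obtain ⟨τ, hτ, h1⟩ := hy' y hyM
      obtain ⟨v, hv1, hv2, hv3⟩ := hy _ h1
      refine ⟨Function.update v a τ, ?_, ?_, ?_⟩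
      · intro i
        by_cases hi : i = a
        · subst hi
          simpa using hτ
        · simpa [hi] using hv1 i
      · intro i hi
        have h2 : i ≠ a := fun h => hi (h ▸ Finset.mem_insert_self _ _)
        have h3 : i ∉ S := fun h => hi (Finset.mem_insert_of_mem h)
        simpa [h2] using hv2 i h3
      · have he : y + Function.update v a τ = Function.update y a (y a + τ) + v := by
          ext i
          by_cases hi : i = a
          · subst hi
            simp [hv2 i ha]
          · simp [hi]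
        rw [he]
        exact hv3
    · rw [Finset.sum_insert ha]
      have hp : volume.real (proj a L) ≤ volume.real (proj a M) :=
        measureReal_mono (proj_mono a hLM) (Fat.proj_compact a hMc).measure_lt_top.ne
      have h4 : 2 * (t * c a) * volume.real (proj a L) ≤ 2 * (t * c a) * volume.real (proj a M) :=
        mul_le_mul_of_nonneg_left hp (by have := mul_nonneg ht (h0 a); linarith)
      linarith

/-- the fattened body is contained in a slightly larger copy -/
theorem sub_smul {L M : Set (Fin (n + 1) → ℝ)} (hL : Convex ℝ L)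
    {c : Fin (n + 1) → ℝ} (hb : ∀ y, (∀ i, |y i| ≤ c i) → y ∈ L) {t : ℝ} (ht : 0 < t)
    (hM : ∀ y ∈ M, ∃ v : Fin (n + 1) → ℝ, (∀ i, |v i| ≤ t * c i) ∧ y + v ∈ L) :
    M ⊆ (1 + t) • L := by
  intro y hy
  obtain ⟨v, hv, hyv⟩ := hM y hy
  have hw : (-(1 / t)) • v ∈ L := by
    refine hb _ fun i => ?_
    have h1 : |(-(1 / t)) * v i| = (1 / t) * |v i| := by
      rw [abs_mul, abs_neg, abs_of_pos (by positivity)]
    rw [Pi.smul_apply, smul_eq_mul, h1]
    calc (1 / t) * |v i| ≤ (1 / t) * (t * c i) :=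
          mul_le_mul_of_nonneg_left (hv i) (by positivity)
      _ = c i := by field_simp
  have ht1 : (0 : ℝ) < 1 + t := by linarith
  have hmem := hL hyv hw (a := 1 / (1 + t)) (b := t / (1 + t)) (by positivity) (by positivity)
    (by field_simp)
  refine ⟨_, hmem, ?_⟩
  ext i
  simp only [Pi.smul_apply, Pi.add_apply, smul_eq_mul]
  field_simp
  ring

end Box

open Box in
/-- [R3] the box inequality -/
theorem box_bound {n : ℕ} {L : Set (Fin (n + 1) → ℝ)} (hL : Convex ℝ L) (hc : IsCompact L)
    {c : Fin (n + 1) → ℝ} (h0 : ∀ i, 0 ≤ c i) (hb : ∀ y, (∀ i, |y i| ≤ c i) → y ∈ L) :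
    ∑ i, 2 * c i * volume.real (proj i L) ≤ ((n : ℝ) + 1) * volume.real L := by
  set A := ∑ i, 2 * c i * volume.real (proj i L) with hA
  set V := volume.real L with hV
  have key : ∀ t : ℝ, 0 < t → A ≤ (t⁻¹ • ((1 + t) ^ (n + 1) - 1 ^ (n + 1))) * V := by
    intro t ht
    obtain ⟨M, hMc, hMv, hLM, hy, hv⟩ := iter hL hc h0 ht.le Finset.univ
    have hsub : M ⊆ (1 + t) • L := sub_smul hL hb ht fun y hyM => by
      obtain ⟨v, h1, _, h3⟩ := hy y hyM
      exact ⟨v, h1, h3⟩
    have hvol : volume.real M ≤ (1 + t) ^ (n + 1) * V := by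
      have hfin : volume ((1 + t) • L) ≠ ∞ := (hc.smul (1 + t)).measure_lt_top.ne
      refine (measureReal_mono hsub hfin).trans (le_of_eq ?_)
      rw [measureReal_def, Measure.addHaar_smul, ENNReal.toReal_mul, Module.finrank_fin_fun,
        ENNReal.toReal_ofReal (abs_nonneg _), abs_of_nonneg (by positivity)]
      rfl
    have hsum : ∑ i, 2 * (t * c i) * volume.real (proj i L) = t * A := by
      rw [hA, Finset.mul_sum]
      refine Finset.sum_congr rfl fun i _ => ?_
      ring
    rw [hsum] at hv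
    have h5 : t * A ≤ ((1 + t) ^ (n + 1) - 1) * V := by
      have := hv.trans hvol
      linarith
    rw [smul_eq_mul, one_pow, mul_assoc, ← div_eq_inv_mul, le_div_iff₀ ht, mul_comm]
    exact h5
  have hd : HasDerivAt (fun x : ℝ => x ^ (n + 1)) (((n + 1 : ℕ) : ℝ) * 1 ^ n) 1 := by
    simpa using hasDerivAt_pow (n + 1) (1 : ℝ)
  have hlim := (hd.tendsto_slope_zero_right).mul_const V
  have hev : ∀ᶠ t in nhdsWithin (0 : ℝ) (Ioi 0),
      A ≤ (t⁻¹ • ((1 + t) ^ (n + 1) - 1 ^ (n + 1))) * V := by
    filter_upwards [self_mem_nhdsWithin] with t ht using key t ht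
  have := ge_of_tendsto hlim hev
  simpa using this

end Vale.Agent.P248
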