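import Vale.Agent.P248.Refl

/-! P248: the centroid of the polar, the origin is interior. -/

namespace Vale.Agent.P248

open MeasureTheory

theorem polar_sgn {n : ℕ} {K : Set (Fin n → ℝ)} {s : Fin n → ℤˣ} (hs : ∀ x ∈ K, sgn s x ∈ K)
    {y : Fin n → ℝ} (hy : y ∈ polar K) : sgn s y ∈ polar K := by
  intro x hx
  have h := hy _ (hs x hx)
  refine le_trans (le_of_eq ?_) h
  refine Finset.sum_congr rfl fun i _ => ?_
  simp only [sgn]
  ring

theorem cent {n : ℕ} {K : Set (Fin n → ℝ)} (s : Fin n → ℤˣ) (hs : ∀ x ∈ K, sgn s x ∈ K)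
    {i : Fin n} (hi : s i = -1) : ∫ y in polar K, y i = 0 := by
  have h1 := (Refl.mp_sgn s).setIntegral_preimage_emb (Refl.hom s).measurableEmbedding
    (fun y : Fin n → ℝ => y i) (polar K)
  have h2 : sgn s ⁻¹' (polar K) = polar K := by
    ext y
    constructor
    · intro hy
      have := polar_sgn hs hy
      rwa [Refl.sgn_sgn] at this
    · intro hy
      exact polar_sgn hs hy
  have h3 : ∀ y : Fin n → ℝ, sgn s y i = - y i := by
    intro y
    simp [sgn, hi]
  rw [h2] at h1
  simp only [h3] at h1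
  rw [integral_neg] at h1
  linarith

theorem zero_interior {n : ℕ} {K : Set (Fin n → ℝ)} (hK : Convex ℝ K)
    (hne : (interior K).Nonempty)
    (h : ∀ i, ∃ s : Fin n → ℤˣ, s i = -1 ∧ ∀ x ∈ K, sgn s x ∈ K) :
    (0 : Fin n → ℝ) ∈ interior K := by
  classical
  have hint : ∀ s : Fin n → ℤˣ, (∀ x ∈ K, sgn s x ∈ K) → ∀ x ∈ interior K,
      sgn s x ∈ interior K := by
    intro s hs x hx
    have h1 : IsOpen (sgn s ⁻¹' interior K) := isOpen_interior.preimage (Refl.cont_sgn s)
    have h2 : sgn s ⁻¹' interior K ⊆ K := by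
      intro y hy
      have := hs _ (interior_subset hy)
      rwa [Refl.sgn_sgn] at this
    have h3 : sgn s x ∈ sgn s ⁻¹' interior K := by
      change sgn s (sgn s x) ∈ interior K
      rwa [Refl.sgn_sgn]
    exact interior_maximal h2 h1 h3
  have key : ∀ S : Finset (Fin n), ∃ x ∈ interior K, ∀ i ∈ S, x i = 0 := by
    intro S
    induction S using Finset.induction_on with
    | empty =>
      obtain ⟨x, hx⟩ := hne
      exact ⟨x, hx, by simp⟩
    | insert i S hi ih =>
      obtain ⟨x, hx, hx0⟩ := ih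
      obtain ⟨s, hsi, hs⟩ := h i
      refine ⟨(1 / 2 : ℝ) • x + (1 / 2 : ℝ) • sgn s x,
        hK.interior hx (hint s hs x hx) (by norm_num) (by norm_num) (by norm_num), ?_⟩
      intro j hj
      simp only [Pi.add_apply, Pi.smul_apply, smul_eq_mul, sgn]
      rcases Finset.mem_insert.1 hj with rfl | hj
      · rw [hsi]
        push_cast
        ring
      · rw [hx0 j hj]
        ring
  obtain ⟨x, hx, hx0⟩ := key Finset.univ
  have : x = 0 := funext fun i => hx0 i (Finset.mem_univ i)
  rwa [this] at hx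

end Vale.Agent.P248
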