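import Vale.Agent.P248.Defs

/-!
P248, row R1: cones over the faces of the positive part of a convex body.
-/

namespace Vale.Agent.P248

open MeasureTheory

namespace Cone

/-- the open part of the face `x_i = 0` of the positive part -/
def Fp {n : ℕ} (K : Set (Fin (n + 1) → ℝ)) (i : Fin (n + 1)) : Set (Fin n → ℝ) :=
  hsec i K ∩ {z | ∀ j, 0 < z j}

/-- the cone with apex `x` over the face `i`, in the coordinates `(w i, w')` -/
def C {n : ℕ} (K : Set (Fin (n + 1) → ℝ)) (x : Fin (n + 1) → ℝ) (i : Fin (n + 1)) :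
    Set (ℝ × (Fin n → ℝ)) :=
  {p | (0 < p.1 ∧ p.1 < x i) ∧
    (1 - p.1 / x i)⁻¹ • (p.2 - (p.1 / x i) • i.removeNth x) ∈ Fp K i}

theorem continuous_ins {n : ℕ} (i : Fin (n + 1)) :
    Continuous (fun z : Fin n → ℝ => (i.insertNth (0 : ℝ) z : Fin (n + 1) → ℝ)) := by
  refine continuous_pi fun j => ?_
  refine Fin.succAboveCases i ?_ (fun k => ?_) j
  · simpa using continuous_const
  · simpa using continuous_apply k

theorem isClosed_hsec {n : ℕ} {K : Set (Fin (n + 1) → ℝ)} (hc : IsCompact K) (i : Fin (n + 1)) :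
    IsClosed (hsec i K) := hc.isClosed.preimage (continuous_ins i)

theorem isOpen_pos {n : ℕ} : IsOpen {z : Fin n → ℝ | ∀ j, 0 < z j} := by
  simp only [Set.ofPred_forall]
  exact isOpen_iInter_of_finite fun j => isOpen_lt continuous_const (continuous_apply j)

theorem isClosed_nn {n : ℕ} : IsClosed {z : Fin n → ℝ | ∀ j, 0 ≤ z j} := by
  simp only [Set.ofPred_forall]
  exact isClosed_iInter fun j => isClosed_le continuous_const (continuous_apply j)

theorem meas_Fp {n : ℕ} {K : Set (Fin (n + 1) → ℝ)} (hc : IsCompact K) (i : Fin (n + 1)) :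
    MeasurableSet (Fp K i) :=
  (isClosed_hsec hc i).measurableSet.inter isOpen_pos.measurableSet

theorem meas_C {n : ℕ} {K : Set (Fin (n + 1) → ℝ)} (hc : IsCompact K) (x : Fin (n + 1) → ℝ)
    (i : Fin (n + 1)) : MeasurableSet (C K x i) := by
  refine MeasurableSet.inter ?_ ?_
  · exact (measurableSet_lt measurable_const measurable_fst).inter
      (measurableSet_lt measurable_fst measurable_const)
  · have hm : Measurable (fun p : ℝ × (Fin n → ℝ) =>
        (1 - p.1 / x i)⁻¹ • (p.2 - (p.1 / x i) • i.removeNth x)) := by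
      fun_prop
    exact hm (meas_Fp hc i)

theorem vol_Fp {n : ℕ} {K : Set (Fin (n + 1) → ℝ)} (i : Fin (n + 1)) :
    volume (Fp K i) = volume (hsec i K ∩ {z | ∀ j, 0 ≤ z j}) := by
  apply le_antisymm
  · refine measure_mono ?_
    rintro z ⟨h1, h2⟩
    exact ⟨h1, fun j => (h2 j).le⟩
  · have hsub : hsec i K ∩ {z : Fin n → ℝ | ∀ j, 0 ≤ z j} ⊆
        Fp K i ∪ ⋃ j : Fin n, {z : Fin n → ℝ | z j = 0} := by
      rintro z ⟨h1, h2⟩
      by_cases h : ∀ j, 0 < z j
      · exact Or.inl ⟨h1, h⟩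
      · push Not at h
        obtain ⟨j, hj⟩ := h
        exact Or.inr (Set.mem_iUnion.2 ⟨j, le_antisymm hj (h2 j)⟩)
    have hnull : volume (⋃ j : Fin n, {z : Fin n → ℝ | z j = 0}) = 0 := by
      rw [measure_iUnion_null_iff]
      intro j
      exact Measure.pi_hyperplane (fun _ : Fin n => (volume : Measure ℝ)) j 0
    calc volume (hsec i K ∩ {z : Fin n → ℝ | ∀ j, 0 ≤ z j})
        ≤ volume (Fp K i ∪ ⋃ j : Fin n, {z : Fin n → ℝ | z j = 0}) := measure_mono hsub
      _ ≤ volume (Fp K i) + volume (⋃ j : Fin n, {z : Fin n → ℝ | z j = 0}) :=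
          measure_union_le _ _
      _ = volume (Fp K i) := by rw [hnull, add_zero]

theorem integral_cone {a : ℝ} (ha : 0 < a) (n : ℕ) :
    ∫⁻ t in Set.Ioo 0 a, ENNReal.ofReal ((1 - t / a) ^ n) = ENNReal.ofReal (a / (n + 1)) := by
  rw [← ofReal_integral_eq_lintegral_ofReal]
  · congr 1
    rw [← integral_Ioc_eq_integral_Ioo, ← intervalIntegral.integral_of_le ha.le]
    have := intervalIntegral.integral_comp_sub_div (a := 0) (b := a) (fun y : ℝ => y ^ n) ha.ne' 1
    rw [this]
    simp [ha.ne', integral_pow]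
    field_simp
  · refine IntegrableOn.mono_set ?_ Set.Ioo_subset_Icc_self
    exact (by fun_prop : Continuous fun t : ℝ => (1 - t / a) ^ n).continuousOn.integrableOn_Icc
  · refine (ae_restrict_iff' measurableSet_Ioo).2 (Filter.Eventually.of_forall ?_)
    intro t ht
    have : t / a ≤ 1 := (div_le_one ha).2 ht.2.le
    exact pow_nonneg (by linarith) n

theorem vol_C {n : ℕ} {K : Set (Fin (n + 1) → ℝ)} (hc : IsCompact K) {x : Fin (n + 1) → ℝ}
    (i : Fin (n + 1)) (hxi : 0 < x i) :
    volume (C K x i) = ENNReal.ofReal (x i / (n + 1)) * volume (Fp K i) := by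
  rw [Measure.volume_eq_prod, Measure.prod_apply (meas_C hc x i)]
  have h1 : ∀ t : ℝ, volume (Prod.mk t ⁻¹' C K x i) =
      (Set.Ioo 0 (x i)).indicator
        (fun t => ENNReal.ofReal ((1 - t / x i) ^ n) * volume (Fp K i)) t := by
    intro t
    by_cases ht : t ∈ Set.Ioo 0 (x i)
    · rw [Set.indicator_of_mem ht]
      have hr : 0 < 1 - t / x i := by
        have : t / x i < 1 := (div_lt_one hxi).2 ht.2
        linarith
      have hpre : Prod.mk t ⁻¹' C K x i =
          (fun z : Fin n → ℝ => z + -((t / x i) • i.removeNth x)) ⁻¹'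
            ((fun z : Fin n → ℝ => (1 - t / x i)⁻¹ • z) ⁻¹' Fp K i) := by
        ext z
        simp only [C, Set.mem_preimage, Set.mem_ofPred_eq, ← sub_eq_add_neg]
        exact ⟨fun h => h.2, fun h => ⟨⟨ht.1, ht.2⟩, h⟩⟩
      rw [hpre, measure_preimage_add_right, Measure.addHaar_preimage_smul volume (inv_ne_zero hr.ne')]
      congr 2
      rw [Module.finrank_fin_fun, inv_pow, inv_inv, abs_of_pos (pow_pos hr n)]
    · rw [Set.indicator_of_notMem ht]
      have : Prod.mk t ⁻¹' C K x i = ∅ := by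
        ext z
        simp only [C, Set.mem_preimage, Set.mem_ofPred_eq, Set.mem_empty_iff_false, iff_false]
        intro h
        exact ht ⟨h.1.1, h.1.2⟩
      rw [this, measure_empty]
  rw [lintegral_congr h1, lintegral_indicator measurableSet_Ioo,
    lintegral_mul_const _ (by fun_prop), integral_cone hxi]

theorem mem_of_C {n : ℕ} {K : Set (Fin (n + 1) → ℝ)} (hK : Convex ℝ K) {x : Fin (n + 1) → ℝ}
    (hx : x ∈ K) (hx0 : ∀ i, 0 ≤ x i) {i : Fin (n + 1)} {w : Fin (n + 1) → ℝ}
    (hw : (w i, i.removeNth w) ∈ C K x i) :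
    w ∈ K ∧ (∀ j, 0 ≤ w j) ∧ ∀ j, j ≠ i → w i * x j < w j * x i := by
  obtain ⟨⟨h1, h2⟩, h3, h4⟩ := hw
  simp only at h1 h2 h3 h4
  have hxi : 0 < x i := h1.trans h2
  set s := w i / x i with hs
  have hs0 : 0 < s := div_pos h1 hxi
  have hs1 : s < 1 := (div_lt_one hxi).2 h2
  have hr : 0 < 1 - s := by linarith
  set z := (1 - s)⁻¹ • (i.removeNth w - s • i.removeNth x) with hz
  have hzk : ∀ k, (1 - s) * z k = w (i.succAbove k) - s * x (i.succAbove k) := by
    intro k
    simp only [hz, Pi.smul_apply, Pi.sub_apply, smul_eq_mul, Fin.removeNth]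
    field_simp
  have hw : w = s • x + (1 - s) • (i.insertNth (0 : ℝ) z : Fin (n + 1) → ℝ) := by
    funext j
    refine Fin.succAboveCases i ?_ (fun k => ?_) j
    · simp only [Pi.add_apply, Pi.smul_apply, smul_eq_mul, Fin.insertNth_apply_same, mul_zero,
        add_zero, hs]
      field_simp
    · simp only [Pi.add_apply, Pi.smul_apply, smul_eq_mul, Fin.insertNth_apply_succAbove, hzk]
      ring
  have hlt : ∀ j, j ≠ i → w i * x j < w j * x i := by
    intro j hj
    obtain ⟨k, rfl⟩ := Fin.exists_succAbove_eq hj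
    have h5 : 0 < (1 - s) * z k := mul_pos hr (h4 k)
    rw [hzk] at h5
    have h6 : w i = s * x i := by rw [hs]; field_simp
    rw [h6]
    nlinarith
  refine ⟨?_, ?_, hlt⟩
  · rw [hw]
    exact hK hx h3 hs0.le hr.le (by ring)
  · intro j
    by_cases hj : j = i
    · rw [hj]; exact h1.le
    · have := hlt j hj
      have h7 : 0 ≤ w i * x j := mul_nonneg h1.le (hx0 j)
      by_contra hneg
      push Not at hneg
      nlinarith

end Cone

open Cone in
/-- [R1] Cone.lean. `C_i` = cones with apex `x` over the faces `x_i = 0` are disjoint. -/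
theorem cone_pos {n : ℕ} {K : Set (Fin (n + 1) → ℝ)} (hK : Convex ℝ K) (hc : IsCompact K)
    {x : Fin (n + 1) → ℝ} (hx : x ∈ K) (hx0 : ∀ i, 0 ≤ x i) :
    ∑ i, x i * volume.real (hsec i K ∩ {z | ∀ j, 0 ≤ z j}) ≤
      ((n : ℝ) + 1) * volume.real (K ∩ {z | ∀ j, 0 ≤ z j}) := by
  classical
  have hmp := fun i : Fin (n + 1) => volume_preserving_piFinSuccAbove (fun _ => ℝ) i
  set D : Fin (n + 1) → Set (Fin (n + 1) → ℝ) := fun i =>
    (MeasurableEquiv.piFinSuccAbove (fun _ => ℝ) i) ⁻¹' (C K x i) with hD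
  have hmem : ∀ i w, w ∈ D i → (w i, i.removeNth w) ∈ C K x i := fun i w h => h
  have hDm : ∀ i, MeasurableSet (D i) := fun i =>
    (MeasurableEquiv.piFinSuccAbove (fun _ => ℝ) i).measurable (meas_C hc x i)
  have hvol : ∀ i, volume (D i) =
      ENNReal.ofReal (x i / (n + 1)) * volume (hsec i K ∩ {z | ∀ j, 0 ≤ z j}) := by
    intro i
    rw [hD, ← vol_Fp (K := K) i]
    show volume ((MeasurableEquiv.piFinSuccAbove (fun _ => ℝ) i) ⁻¹' (C K x i)) = _
    rw [(hmp i).measure_preimage (meas_C hc x i).nullMeasurableSet]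
    rcases (hx0 i).eq_or_lt with h | h
    · have : C K x i = ∅ := by
        ext p
        simp only [C, Set.mem_ofPred_eq, Set.mem_empty_iff_false, iff_false]
        intro hp
        have := hp.1.1.trans hp.1.2
        rw [← h] at this
        exact lt_irrefl _ this
      rw [this, ← h]
      simp
    · exact vol_C hc i h
  have hdisj : Pairwise (Function.onFun Disjoint D) := by
    intro i j hij
    refine Set.disjoint_left.2 fun w hi hj => ?_
    have h1 := (mem_of_C hK hx hx0 (hmem i w hi)).2.2 j hij.symm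
    have h2 := (mem_of_C hK hx hx0 (hmem j w hj)).2.2 i hij
    linarith
  have hsub : (⋃ i, D i) ⊆ K ∩ {z | ∀ j, 0 ≤ z j} := by
    intro w hw
    obtain ⟨i, hi⟩ := Set.mem_iUnion.1 hw
    have := mem_of_C hK hx hx0 (hmem i w hi)
    exact ⟨this.1, this.2.1⟩
  have hfin : volume (K ∩ {z : Fin (n + 1) → ℝ | ∀ j, 0 ≤ z j}) ≠ ⊤ :=
    ((measure_mono Set.inter_subset_left).trans_lt hc.measure_lt_top).ne
  have h1 : ∑ i, volume (D i) ≤ volume (K ∩ {z | ∀ j, 0 ≤ z j}) := by
    have h := measure_iUnion (μ := volume) hdisj hDm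
    rw [tsum_fintype] at h
    rw [← h]
    exact measure_mono hsub
  have h2 : ∑ i, volume.real (D i) ≤ volume.real (K ∩ {z | ∀ j, 0 ≤ z j}) := by
    have := ENNReal.toReal_mono hfin h1
    rw [ENNReal.toReal_sum] at this
    · exact this
    · intro i _
      exact ((measure_mono ((Set.subset_iUnion D i).trans hsub)).trans_lt hfin.lt_top).ne
  have h3 : ∀ i, volume.real (D i) =
      x i / (n + 1) * volume.real (hsec i K ∩ {z | ∀ j, 0 ≤ z j}) := by
    intro i
    have hn : (0 : ℝ) < (n : ℝ) + 1 := by positivity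
    rw [measureReal_def, hvol, ENNReal.toReal_mul, ENNReal.toReal_ofReal (div_nonneg (hx0 i) hn.le),
      measureReal_def]
  have hn : (0 : ℝ) < (n : ℝ) + 1 := by positivity
  calc ∑ i, x i * volume.real (hsec i K ∩ {z | ∀ j, 0 ≤ z j})
      = ((n : ℝ) + 1) * ∑ i, volume.real (D i) := by
        rw [Finset.mul_sum]
        refine Finset.sum_congr rfl fun i _ => ?_
        rw [h3]
        field_simp
    _ ≤ ((n : ℝ) + 1) * volume.real (K ∩ {z | ∀ j, 0 ≤ z j}) :=
        mul_le_mul_of_nonneg_left h2 hn.le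

end Vale.Agent.P248
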