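import Vale.Agent.P248.Refl

/-!
P248, row R7a: bodies invariant under even sign changes and under one signed permutation with an odd
number of signs are cut by the coordinate hyperplanes into parts of equal volume, and so are all
their coordinate sections.
-/

namespace Vale.Agent.P248

open MeasureTheory

namespace Ev

/-- a volume preserving homeomorphism that maps one orthant part into another -/
theorem le_of_map {k : ℕ} {A B : Set (Fin k → ℝ)} (Φ : (Fin k → ℝ) → (Fin k → ℝ))
    (hΦ : MeasurePreserving Φ volume volume) (hme : MeasurableEmbedding Φ)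
    (h : ∀ x ∈ A, Φ x ∈ B) : volume A ≤ volume B := by
  have h1 : A ⊆ Φ ⁻¹' B := fun x hx => h x hx
  calc volume A ≤ volume (Φ ⁻¹' B) := measure_mono h1
    _ = volume B := hΦ.measure_preimage_emb hme B

theorem le_of_flip {k : ℕ} {S : Set (Fin k → ℝ)} (s s' : Fin k → ℤˣ)
    (h : ∀ x ∈ S, sgn (fun j => s j * s' j) x ∈ S) :
    volume (S ∩ orth s) ≤ volume (S ∩ orth s') := by
  refine le_of_map (sgn (fun j => s j * s' j)) (Refl.mp_sgn _)
    (Refl.hom (fun j => s j * s' j)).measurableEmbedding ?_
  rintro x ⟨hx, hxs⟩
  refine ⟨h x hx, ?_⟩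
  intro j
  have h1 : ((s' j : ℤ) : ℝ) * sgn (fun j => s j * s' j) x j = ((s j : ℤ) : ℝ) * x j := by
    simp only [sgn, Units.val_mul, Int.cast_mul]
    have := Refl.sq_unit (s' j)
    linear_combination ((s j : ℤ) : ℝ) * x j * this
  rw [h1]
  exact hxs j

theorem sec_flip {n k : ℕ} {K : Set (Fin n → ℝ)} (e : Fin k ↪ Fin n) (σ : Fin k → ℤˣ)
    (σ' : Fin n → ℤˣ) (h1 : ∀ j, σ' (e j) = σ j) (h2 : ∀ x ∈ K, sgn σ' x ∈ K) :
    ∀ x ∈ sec e K, sgn σ x ∈ sec e K := by
  intro x hx
  have h3 : Function.extend e (sgn σ x) 0 = sgn σ' (Function.extend e x 0) := by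
    funext i
    by_cases hi : ∃ j, e j = i
    · obtain ⟨j, rfl⟩ := hi
      rw [e.injective.extend_apply]
      simp only [sgn]
      rw [e.injective.extend_apply, h1]
    · rw [Function.extend_apply' _ _ _ hi]
      simp only [sgn]
      rw [Function.extend_apply' _ _ _ hi]
      simp
  change Function.extend e (sgn σ x) 0 ∈ K
  rw [h3]
  exact h2 _ hx

theorem mp_perm {k : ℕ} (τ : Equiv.Perm (Fin k)) :
    MeasurePreserving (fun x : Fin k → ℝ => fun j => x (τ j)) volume volume := by
  have h := volume_measurePreserving_piCongrLeft (fun _ : Fin k => ℝ) τ.symm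
  have h2 : (fun x : Fin k → ℝ => fun j => x (τ j)) =
      (MeasurableEquiv.piCongrLeft (fun _ : Fin k => ℝ) τ.symm) := by
    funext x j
    have := Equiv.piCongrLeft_apply_apply (fun _ : Fin k => ℝ) τ.symm x (τ j)
    simp only [Equiv.symm_apply_apply] at this
    exact this.symm
  rw [h2]
  exact h

theorem me_perm {k : ℕ} (τ : Equiv.Perm (Fin k)) :
    MeasurableEmbedding (fun x : Fin k → ℝ => fun j => x (τ j)) := by
  have h2 : (fun x : Fin k → ℝ => fun j => x (τ j)) =
      (MeasurableEquiv.piCongrLeft (fun _ : Fin k => ℝ) τ.symm) := by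
    funext x j
    have := Equiv.piCongrLeft_apply_apply (fun _ : Fin k => ℝ) τ.symm x (τ j)
    simp only [Equiv.symm_apply_apply] at this
    exact this.symm
  rw [h2]
  exact MeasurableEquiv.measurableEmbedding _

theorem prod_units {ι : Type*} [Fintype ι] (σ : ι → ℤˣ) :
    (∏ i, σ i) * (∏ i, σ i) = 1 := by
  rcases Int.units_eq_one_or (∏ i, σ i) with h | h <;> simp [h]

end Ev

/-- [R7a] bodies in `ℝ^n` invariant under even sign changes and one signed permutation with an odd
number of signs -/
theorem equi_of_even {n : ℕ} {K : Set (Fin n → ℝ)} 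
    (hs : ∀ s : Fin n → ℤˣ, ∏ i, s i = 1 → ∀ x ∈ K, sgn s x ∈ K)
    (π : Equiv.Perm (Fin n)) (t : Fin n → ℤˣ) (ht : ∏ i, t i = -1)
    (hg : ∀ x ∈ K, sgn t (x ∘ π) ∈ K) : Equi K := by
  intro k e
  suffices H : ∀ s s' : Fin k → ℤˣ, volume (sec e K ∩ orth s) ≤ volume (sec e K ∩ orth s') from
    fun s s' => le_antisymm (H s s') (H s' s)
  by_cases hsurj : Function.Surjective e
  · -- full dimension
    set E : Fin k ≃ Fin n := Equiv.ofBijective e ⟨e.injective, hsurj⟩ with hE
    have hEe : ∀ j, E j = e j := fun j => rfl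
    set τ : Equiv.Perm (Fin k) := (E.trans π).trans E.symm with hτ
    have hτe : ∀ j, e (τ j) = π (e j) := by
      intro j
      change E (E.symm (π (E j))) = π (E j)
      exact E.apply_symm_apply _
    have heven : ∀ s s' : Fin k → ℤˣ, ∏ j, s j = ∏ j, s' j →
        volume (sec e K ∩ orth s) ≤ volume (sec e K ∩ orth s') := by
      intro s s' hss
      refine Ev.le_of_flip s s' ?_
      refine Ev.sec_flip e _ (fun i => s (E.symm i) * s' (E.symm i)) ?_ ?_
      · intro j
        rw [← hEe]
        simp
      · refine hs _ ?_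
        rw [Equiv.prod_comp E.symm (fun j => s j * s' j), Finset.prod_mul_distrib, hss]
        exact Ev.prod_units s'
    have hodd : ∀ s : Fin k → ℤˣ,
        volume (sec e K ∩ orth s) ≤ volume (sec e K ∩ orth (fun j => t (e j) * s (τ j))) := by
      intro s
      refine Ev.le_of_map (fun x => sgn (fun j => t (e j)) (fun j => x (τ j))) ?_ ?_ ?_
      · exact (Refl.mp_sgn _).comp (Ev.mp_perm τ)
      · exact (Refl.hom (fun j => t (e j))).measurableEmbedding.comp (Ev.me_perm τ)
      · rintro x ⟨hx, hxs⟩
        refine ⟨?_, ?_⟩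
        · have h3 : Function.extend e (sgn (fun j => t (e j)) (fun j => x (τ j))) 0 =
              sgn t ((Function.extend e x 0) ∘ π) := by
            funext i
            obtain ⟨j, rfl⟩ := hsurj i
            rw [e.injective.extend_apply]
            simp only [sgn, Function.comp_apply]
            rw [← hτe, e.injective.extend_apply]
          change Function.extend e _ 0 ∈ K
          rw [h3]
          exact hg _ hx
        · intro j
          have h4 : (((t (e j) * s (τ j) : ℤˣ) : ℤ) : ℝ) *
              sgn (fun j => t (e j)) (fun j => x (τ j)) j = ((s (τ j) : ℤ) : ℝ) * x (τ j) := by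
            simp only [sgn, Units.val_mul, Int.cast_mul]
            have := Refl.sq_unit (t (e j))
            linear_combination ((s (τ j) : ℤ) : ℝ) * x (τ j) * this
          rw [h4]
          exact hxs (τ j)
    have hprod : ∀ s : Fin k → ℤˣ, ∏ j, (t (e j) * s (τ j)) = - ∏ j, s j := by
      intro s
      rw [Finset.prod_mul_distrib, Equiv.prod_comp τ s]
      have : ∏ j, t (e j) = ∏ i, t i := Equiv.prod_comp E t
      rw [this, ht]
      simp
    intro s s'
    by_cases hss : ∏ j, s j = ∏ j, s' j
    · exact heven s s' hss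
    · refine (hodd s).trans (heven _ _ ?_)
      rw [hprod]
      rcases Int.units_eq_one_or (∏ j, s j) with h | h <;>
        rcases Int.units_eq_one_or (∏ j, s' j) with h' | h' <;> simp_all
  · -- a proper section is unconditional
    have hex : ∃ i₀, ∀ j, e j ≠ i₀ := by
      by_contra hcon
      push Not at hcon
      exact hsurj hcon
    obtain ⟨i₀, hi₀⟩ := hex
    intro s s'
    refine Ev.le_of_flip s s' ?_
    set σ : Fin k → ℤˣ := fun j => s j * s' j with hσ
    refine Ev.sec_flip e σ
      (fun i => if i = i₀ then ∏ j, σ j else Function.extend e σ 1 i) ?_ ?_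
    · intro j
      rw [if_neg (hi₀ j), e.injective.extend_apply]
    · refine hs _ ?_
      have h1 : ∏ i, (if i = i₀ then ∏ j, σ j else Function.extend e σ 1 i) =
          (∏ j, σ j) * ∏ i, Function.extend e σ 1 i := by
        rw [← Finset.mul_prod_erase Finset.univ _ (Finset.mem_univ i₀)]
        rw [← Finset.mul_prod_erase Finset.univ (fun i => Function.extend e σ 1 i)
          (Finset.mem_univ i₀)]
        have h2 : Function.extend e σ 1 i₀ = 1 := by
          rw [Function.extend_apply' _ _ _ (by rintro ⟨j, hj⟩; exact hi₀ j hj)]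
          rfl
        rw [h2, one_mul, if_pos rfl]
        congr 1
        refine Finset.prod_congr rfl fun i hi => ?_
        rw [if_neg (Finset.ne_of_mem_erase hi)]
      have h3 : ∏ i, Function.extend e σ 1 i = ∏ j, σ j := by
        rw [← Finset.prod_subset (Finset.subset_univ (Finset.univ.map e))]
        · rw [Finset.prod_map]
          refine Finset.prod_congr rfl fun j _ => ?_
          rw [e.injective.extend_apply]
        · intro i _ hi
          rw [Function.extend_apply' _ _ _ ?_]
          · rfl
          · rintro ⟨j, hj⟩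
            exact hi (by rw [← hj]; exact Finset.mem_map_of_mem e (Finset.mem_univ j))
      rw [h1, h3]
      exact Ev.prod_units σ

end Vale.Agent.P248
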