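import Vale.Agent.P248.Defs

/-!
P248 [R6]: the orthants cover the space and overlap in null sets; sign changes preserve volume.
-/

namespace Vale.Agent.P248

open MeasureTheory

namespace Orth

theorem unit_cases (s : ℤˣ) : ((s : ℤ) : ℝ) = 1 ∨ ((s : ℤ) : ℝ) = -1 := by
  rcases Int.units_eq_one_or s with h | h
  · left; rw [h]; norm_num
  · right; rw [h]; norm_num

theorem exists_mem_orth {n : ℕ} (x : Fin n → ℝ) : ∃ s : Fin n → ℤˣ, x ∈ orth s := by
  refine ⟨fun i => if 0 ≤ x i then 1 else -1, fun i => ?_⟩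
  by_cases h : 0 ≤ x i
  · simp [h]
  · simp only [h, if_false]
    push_cast
    linarith [not_le.1 h]

theorem isClosed_orth {n : ℕ} (s : Fin n → ℤˣ) : IsClosed (orth s) := by
  have h : orth s = ⋂ i, {x : Fin n → ℝ | 0 ≤ ((s i : ℤ) : ℝ) * x i} := by
    ext x; simp [orth]
  rw [h]
  exact isClosed_iInter fun i => isClosed_le continuous_const (by fun_prop)

theorem inter_null {n : ℕ} {s t : Fin n → ℤˣ} (h : s ≠ t) : volume (orth s ∩ orth t) = 0 := by
  obtain ⟨i, hi⟩ := Function.ne_iff.1 h
  have hsub : orth s ∩ orth t ⊆ {x : Fin n → ℝ | x i = 0} := by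
    rintro x ⟨h1, h2⟩
    have h3 := h1 i
    have h4 := h2 i
    have h5 : t i = - s i := by
      rcases Int.units_eq_one_or (s i) with h6 | h6 <;>
        rcases Int.units_eq_one_or (t i) with h7 | h7 <;> simp_all
    rw [h5] at h4
    rcases unit_cases (s i) with h6 | h6
    · push_cast at h4
      rw [h6] at h3 h4
      change x i = 0
      linarith
    · push_cast at h4
      rw [h6] at h3 h4
      change x i = 0
      linarith
  refine measure_mono_null hsub ?_
  rw [volume_pi]
  exact Measure.pi_hyperplane _ i 0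

theorem sgn_invol {n : ℕ} (s : Fin n → ℤˣ) : Function.Involutive (sgn s) := by
  intro x
  funext i
  simp only [sgn]
  rcases unit_cases (s i) with h | h <;> rw [h] <;> ring

theorem measurable_sgn {n : ℕ} (s : Fin n → ℤˣ) : Measurable (sgn s) := by
  unfold sgn
  fun_prop

theorem preserving_sgn {n : ℕ} (s : Fin n → ℤˣ) :
    MeasurePreserving (sgn s) (volume : Measure (Fin n → ℝ)) volume := by
  have h : ∀ i, MeasurePreserving (fun x : ℝ => ((s i : ℤ) : ℝ) * x) volume volume := by
    intro i
    rcases unit_cases (s i) with h | h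
    · rw [h]
      simp only [one_mul]
      exact MeasurePreserving.id _
    · rw [h]
      simp only [neg_mul, one_mul]
      exact Measure.measurePreserving_neg volume
  exact volume_preserving_pi h

end Orth

theorem orth_sum {n : ℕ} {K : Set (Fin n → ℝ)} (hc : IsCompact K) :
    ∑ s : Fin n → ℤˣ, volume.real (K ∩ orth s) = volume.real K := by
  classical
  have hfin : ∀ s : Fin n → ℤˣ, volume (K ∩ orth s) ≠ ⊤ := fun s =>
    ((measure_mono Set.inter_subset_left).trans_lt hc.measure_lt_top).ne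
  have hU : K = ⋃ s ∈ (Finset.univ : Finset (Fin n → ℤˣ)), K ∩ orth s := by
    ext x
    simp only [Finset.mem_univ, Set.iUnion_true, Set.mem_iUnion, Set.mem_inter_iff]
    constructor
    · intro hx
      obtain ⟨s, hs⟩ := Orth.exists_mem_orth x
      exact ⟨s, hx, hs⟩
    · rintro ⟨s, hx, _⟩
      exact hx
  have hm : volume (⋃ s ∈ (Finset.univ : Finset (Fin n → ℤˣ)), K ∩ orth s) =
      ∑ s : Fin n → ℤˣ, volume (K ∩ orth s) := by
    refine measure_biUnion_finset₀ ?_ fun s _ =>
      (hc.measurableSet.inter (Orth.isClosed_orth s).measurableSet).nullMeasurableSet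
    intro s _ t _ hst
    refine measure_mono_null ?_ (Orth.inter_null hst)
    rintro x ⟨⟨_, h1⟩, _, h2⟩
    exact ⟨h1, h2⟩
  simp only [Measure.real]
  rw [← ENNReal.toReal_sum fun s _ => hfin s, ← hm, ← hU]

theorem orth_sgn {n : ℕ} {K : Set (Fin n → ℝ)} (s t : Fin n → ℤˣ)
    (h : ∀ x ∈ K, sgn s x ∈ K) :
    volume (K ∩ orth (fun i => s i * t i)) = volume (K ∩ orth t) := by
  set e : (Fin n → ℝ) ≃ᵐ (Fin n → ℝ) :=
    MeasurableEquiv.ofInvolutive (sgn s) (Orth.sgn_invol s) (Orth.measurable_sgn s) with he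
  have h1 : MeasurePreserving e (volume : Measure (Fin n → ℝ)) volume := Orth.preserving_sgn s
  rw [← h1.measure_preimage_equiv (K ∩ orth (fun i => s i * t i))]
  congr 1
  ext x
  change (sgn s x ∈ K ∧ sgn s x ∈ orth (fun i => s i * t i)) ↔ (x ∈ K ∧ x ∈ orth t)
  have h2 : sgn s x ∈ K ↔ x ∈ K := by
    constructor
    · intro h3
      have h4 := h _ h3
      rwa [Orth.sgn_invol s x] at h4
    · exact h x
  have h3 : sgn s x ∈ orth (fun i => s i * t i) ↔ x ∈ orth t := by
    refine forall_congr' fun i => ?_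
    have h4 : (((s i * t i : ℤˣ) : ℤ) : ℝ) * sgn s x i = ((t i : ℤ) : ℝ) * x i := by
      simp only [sgn]
      push_cast
      rcases Orth.unit_cases (s i) with h5 | h5 <;> rw [h5] <;> ring
    rw [h4]
  rw [h2, h3]

end Vale.Agent.P248
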