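import Vale.Agent.P248.Defs

/-!
P248, row R4: polars and hyperplane sections.
-/

namespace Vale.Agent.P248

open MeasureTheory

namespace PolarAux

theorem insertNth_comb {n : ℕ} (i : Fin (n + 1)) (a b s t : ℝ) (x y : Fin n → ℝ) :
    (i.insertNth (a * s + b * t) (a • x + b • y) : Fin (n + 1) → ℝ) =
      a • (i.insertNth s x : Fin (n + 1) → ℝ) + b • (i.insertNth t y : Fin (n + 1) → ℝ) := by
  funext j
  refine Fin.succAboveCases i ?_ (fun j => ?_) j
  · simp
  · simp

theorem insertNth_removeNth' {n : ℕ} (i : Fin (n + 1)) (x : Fin (n + 1) → ℝ) :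
    (i.insertNth (x i) (i.removeNth x) : Fin (n + 1) → ℝ) = x := by
  funext j
  refine Fin.succAboveCases i ?_ (fun j => ?_) j
  · simp
  · simp [Fin.removeNth]

theorem sum_insertNth {n : ℕ} (i : Fin (n + 1)) (x : Fin (n + 1) → ℝ) (t : ℝ) (y : Fin n → ℝ) :
    ∑ j, x j * (i.insertNth t y : Fin (n + 1) → ℝ) j = x i * t + ∑ j, x (i.succAbove j) * y j := by
  rw [Fin.sum_univ_succAbove _ i]
  simp

theorem continuous_insertNth {n : ℕ} (i : Fin (n + 1)) :
    Continuous (fun x : Fin n → ℝ => (i.insertNth (0 : ℝ) x : Fin (n + 1) → ℝ)) :=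
  Continuous.finInsertNth i continuous_const continuous_id

end PolarAux

open PolarAux

theorem polar_convex {n : ℕ} (K : Set (Fin n → ℝ)) : Convex ℝ (polar K) := by
  intro y hy z hz a b ha hb hab x hx
  have h1 := hy x hx
  have h2 := hz x hx
  have h3 : ∑ i, x i * (a • y + b • z) i = a * ∑ i, x i * y i + b * ∑ i, x i * z i := by
    simp only [Pi.add_apply, Pi.smul_apply, smul_eq_mul, Finset.mul_sum, ← Finset.sum_add_distrib]
    refine Finset.sum_congr rfl fun i _ => by ring
  rw [h3]
  nlinarith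

theorem polar_closed {n : ℕ} (K : Set (Fin n → ℝ)) : IsClosed (polar K) := by
  have h : polar K = ⋂ x ∈ K, {y : Fin n → ℝ | ∑ i, x i * y i ≤ 1} := by
    ext y
    simp [polar]
  rw [h]
  exact isClosed_biInter fun x _ => isClosed_le (by fun_prop) continuous_const

theorem polar_compact {n : ℕ} {K : Set (Fin n → ℝ)} (h0 : (0 : Fin n → ℝ) ∈ interior K) :
    IsCompact (polar K) := by
  obtain ⟨ε, hε, hball⟩ := Metric.isOpen_iff.1 isOpen_interior 0 h0
  refine Metric.isCompact_of_isClosed_isBounded (polar_closed K) ?_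
  refine (Metric.isBounded_closedBall (x := (0 : Fin n → ℝ)) (r := 2 / ε)).subset ?_
  intro y hy
  rw [mem_closedBall_zero_iff, pi_norm_le_iff_of_nonneg (by positivity)]
  intro i
  have key : ∀ c : ℝ, |c| < ε → c * y i ≤ 1 := by
    intro c hc
    have hx : (Pi.single i c : Fin n → ℝ) ∈ K := by
      refine interior_subset (hball ?_)
      rw [Metric.mem_ball, dist_zero_right, pi_norm_lt_iff hε]
      intro j
      by_cases hj : j = i
      · subst hj
        rw [Pi.single_eq_same]
        exact hc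
      · rw [Pi.single_eq_of_ne hj, norm_zero]
        exact hε
    have h1 := hy _ hx
    rw [Finset.sum_eq_single i] at h1
    · rwa [Pi.single_eq_same] at h1
    · intro j _ hj
      rw [Pi.single_eq_of_ne hj, zero_mul]
    · intro h
      exact absurd (Finset.mem_univ i) h
  have h1 := key (ε / 2) (by rw [abs_of_pos (by positivity)]; linarith)
  have h2 := key (-(ε / 2)) (by rw [abs_neg, abs_of_pos (by positivity)]; linarith)
  rw [Real.norm_eq_abs, abs_le]
  have h3 : (ε / 2) * (2 / ε) = 1 := by field_simp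
  constructor
  · by_contra hcon
    push Not at hcon
    have : (ε / 2) * y i < (ε / 2) * (-(2 / ε)) := mul_lt_mul_of_pos_left hcon (by positivity)
    nlinarith
  · by_contra hcon
    push Not at hcon
    have : (ε / 2) * (2 / ε) < (ε / 2) * y i := mul_lt_mul_of_pos_left hcon (by positivity)
    nlinarith

theorem polar_hsec {n : ℕ} {K : Set (Fin (n + 1) → ℝ)} (hK : Convex ℝ K)
    (h0 : (0 : Fin (n + 1) → ℝ) ∈ interior K) (i : Fin (n + 1)) :
    polar (hsec i K) ⊆ proj i (polar K) := by
  intro y hy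
  -- the linear form on the other coordinates
  set f : (Fin (n + 1) → ℝ) → ℝ := fun x => ∑ j, x (i.succAbove j) * y j with hf
  have hcomb : ∀ x ∈ K, ∀ z ∈ K, 0 < x i → z i < 0 →
      (1 - f z) / z i ≤ (1 - f x) / x i := by
    intro x hx z hz hxi hzi
    have hs : 0 < x i - z i := by linarith
    have hmem : ((-z i) / (x i - z i)) • x + (x i / (x i - z i)) • z ∈ K := by
      refine hK hx hz (div_nonneg (by linarith) hs.le) (div_nonneg hxi.le hs.le) ?_
      field_simp
      ring
    have hsec' : i.removeNth (((-z i) / (x i - z i)) • x + (x i / (x i - z i)) • z) ∈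
        hsec i K := by
      have h1 := insertNth_removeNth' i (((-z i) / (x i - z i)) • x + (x i / (x i - z i)) • z)
      have h2 : (((-z i) / (x i - z i)) • x + (x i / (x i - z i)) • z) i = 0 := by
        simp only [Pi.add_apply, Pi.smul_apply, smul_eq_mul]
        field_simp
        ring
      rw [h2] at h1
      change (i.insertNth (0 : ℝ) _ : Fin (n + 1) → ℝ) ∈ K
      rw [h1]
      exact hmem
    have h3 := hy _ hsec'
    have h4 : ∑ j, i.removeNth (((-z i) / (x i - z i)) • x + (x i / (x i - z i)) • z) j * y j =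
        ((-z i) / (x i - z i)) * f x + (x i / (x i - z i)) * f z := by
      simp only [hf, Fin.removeNth, Pi.add_apply, Pi.smul_apply, smul_eq_mul, Finset.mul_sum,
        ← Finset.sum_add_distrib]
      refine Finset.sum_congr rfl fun j _ => by ring
    rw [h4] at h3
    have h5 : (-z i) * f x + x i * f z ≤ x i - z i := by
      have h6 : ((-z i) / (x i - z i)) * f x + (x i / (x i - z i)) * f z =
          ((-z i) * f x + x i * f z) / (x i - z i) := by
        field_simp
      rw [h6, div_le_one hs] at h3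
      exact h3
    rw [div_le_iff_of_neg hzi, div_mul_eq_mul_div, div_le_iff₀ hxi]
    nlinarith
  obtain ⟨ε, hε, hball⟩ := Metric.isOpen_iff.1 isOpen_interior 0 h0
  have hsingle : ∀ c : ℝ, |c| < ε → (Pi.single i c : Fin (n + 1) → ℝ) ∈ K := by
    intro c hc
    refine interior_subset (hball ?_)
    rw [Metric.mem_ball, dist_zero_right, pi_norm_lt_iff hε]
    intro j
    by_cases hj : j = i
    · subst hj
      rw [Pi.single_eq_same]
      exact hc
    · rw [Pi.single_eq_of_ne hj, norm_zero]
      exact hε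
  have hp := hsingle (ε / 2) (by rw [abs_of_pos (by positivity)]; linarith)
  have hn := hsingle (-(ε / 2)) (by rw [abs_neg, abs_of_pos (by positivity)]; linarith)
  have hpi : 0 < (Pi.single i (ε / 2) : Fin (n + 1) → ℝ) i := by
    rw [Pi.single_eq_same]; positivity
  have hni : (Pi.single i (-(ε / 2)) : Fin (n + 1) → ℝ) i < 0 := by
    rw [Pi.single_eq_same]; linarith
  set S : Set ℝ := {r | ∃ z ∈ K, z i < 0 ∧ r = (1 - f z) / z i} with hS
  have hSne : S.Nonempty := ⟨_, _, hn, hni, rfl⟩
  have hSb : BddAbove S := by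
    refine ⟨(1 - f (Pi.single i (ε / 2))) / (Pi.single i (ε / 2) : Fin (n + 1) → ℝ) i, ?_⟩
    rintro r ⟨z, hz, hzi, rfl⟩
    exact hcomb _ hp z hz hpi hzi
  refine ⟨sSup S, ?_⟩
  intro x hx
  rw [sum_insertNth]
  rcases lt_trichotomy (x i) 0 with hxi | hxi | hxi
  · have h1 : (1 - f x) / x i ≤ sSup S := le_csSup hSb ⟨x, hx, hxi, rfl⟩
    rw [div_le_iff_of_neg hxi] at h1
    have : f x = ∑ j, x (i.succAbove j) * y j := rfl
    linarith [mul_comm (x i) (sSup S)]
  · have hmem : i.removeNth x ∈ hsec i K := by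
      change (i.insertNth (0 : ℝ) _ : Fin (n + 1) → ℝ) ∈ K
      have h1 := insertNth_removeNth' i x
      rw [hxi] at h1
      rw [h1]
      exact hx
    have h1 := hy _ hmem
    rw [hxi, zero_mul, zero_add]
    exact h1
  · have h1 : sSup S ≤ (1 - f x) / x i := by
      refine csSup_le hSne ?_
      rintro r ⟨z, hz, hzi, rfl⟩
      exact hcomb x hx z hz hxi hzi
    rw [le_div_iff₀ hxi] at h1
    have : f x = ∑ j, x (i.succAbove j) * y j := rfl
    linarith [mul_comm (x i) (sSup S)]

theorem hsec_facts {n : ℕ} {K : Set (Fin (n + 1) → ℝ)} (hK : Convex ℝ K) (hc : IsCompact K)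
    (h0 : (0 : Fin (n + 1) → ℝ) ∈ interior K) (i : Fin (n + 1)) :
    Convex ℝ (hsec i K) ∧ IsCompact (hsec i K) ∧ (0 : Fin n → ℝ) ∈ interior (hsec i K) := by
  have hpre : hsec i K = (fun x : Fin n → ℝ => (i.insertNth (0 : ℝ) x : Fin (n + 1) → ℝ)) ⁻¹' K :=
    rfl
  refine ⟨?_, ?_, ?_⟩
  · intro x hx y hy a b ha hb hab
    have h1 := insertNth_comb i a b 0 0 x y
    rw [mul_zero, mul_zero, add_zero] at h1
    change (i.insertNth (0 : ℝ) (a • x + b • y) : Fin (n + 1) → ℝ) ∈ K
    rw [h1]
    exact hK hx hy ha hb hab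
  · have hcl : IsClosed (hsec i K) := by
      rw [hpre]
      exact hc.isClosed.preimage (continuous_insertNth i)
    have hcont : Continuous (fun x : Fin (n + 1) → ℝ => i.removeNth x) := by
      unfold Fin.removeNth
      fun_prop
    refine (hc.image hcont).of_isClosed_subset hcl ?_
    intro x hx
    refine ⟨_, hx, ?_⟩
    funext j
    simp [Fin.removeNth]
  · rw [mem_interior]
    refine ⟨(fun x : Fin n → ℝ => (i.insertNth (0 : ℝ) x : Fin (n + 1) → ℝ)) ⁻¹' interior K, ?_,
      isOpen_interior.preimage (continuous_insertNth i), ?_⟩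
    · intro x hx
      have hx' : (i.insertNth (0 : ℝ) x : Fin (n + 1) → ℝ) ∈ interior K := hx
      exact (interior_subset hx' : (i.insertNth (0 : ℝ) x : Fin (n + 1) → ℝ) ∈ K)
    · change (i.insertNth (0 : ℝ) (0 : Fin n → ℝ) : Fin (n + 1) → ℝ) ∈ interior K
      have h1 : (i.insertNth (0 : ℝ) (0 : Fin n → ℝ) : Fin (n + 1) → ℝ) = 0 := by
        funext j
        refine Fin.succAboveCases i ?_ (fun j => ?_) j
        · simp
        · simp
      rw [h1]
      exact h0

end Vale.Agent.P248
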