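import Vale.Agent.P248.Cone

/-!
P248, row R1b: reflection of the cone inequality to an arbitrary orthant.
-/

namespace Vale.Agent.P248

open MeasureTheory

namespace Refl

theorem sq_unit (u : ℤˣ) : ((u : ℤ) : ℝ) * ((u : ℤ) : ℝ) = 1 := by
  rcases Int.units_eq_one_or u with h | h <;> simp [h]

theorem abs_unit (u : ℤˣ) : |((u : ℤ) : ℝ)| = 1 := by
  rcases Int.units_eq_one_or u with h | h <;> simp [h]

theorem sgn_sgn {n : ℕ} (s : Fin n → ℤˣ) (x : Fin n → ℝ) : sgn s (sgn s x) = x := by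
  funext i
  simp only [sgn]
  rw [← mul_assoc, sq_unit, one_mul]

theorem mp_unit (u : ℤˣ) : MeasurePreserving (fun t : ℝ => ((u : ℤ) : ℝ) * t) volume volume := by
  rcases Int.units_eq_one_or u with h | h
  · subst h
    have : (fun t : ℝ => (((1 : ℤˣ) : ℤ) : ℝ) * t) = id := by
      funext t; simp
    rw [this]
    exact MeasurePreserving.id _
  · subst h
    have : (fun t : ℝ => (((-1 : ℤˣ) : ℤ) : ℝ) * t) = Neg.neg := by
      funext t; simp
    rw [this]
    exact Measure.measurePreserving_neg volume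

theorem mp_sgn {n : ℕ} (s : Fin n → ℤˣ) :
    MeasurePreserving (sgn s : (Fin n → ℝ) → (Fin n → ℝ)) volume volume :=
  volume_preserving_pi (fun i => mp_unit (s i))

theorem cont_sgn {n : ℕ} (s : Fin n → ℤˣ) : Continuous (sgn s : (Fin n → ℝ) → (Fin n → ℝ)) := by
  unfold sgn
  fun_prop

/-- the sign change as a homeomorphism -/
def hom {n : ℕ} (s : Fin n → ℤˣ) : (Fin n → ℝ) ≃ₜ (Fin n → ℝ) where
  toFun := sgn s
  invFun := sgn s
  left_inv := sgn_sgn s
  right_inv := sgn_sgn s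
  continuous_toFun := cont_sgn s
  continuous_invFun := cont_sgn s

theorem vol_pre {n : ℕ} (s : Fin n → ℤˣ) (A : Set (Fin n → ℝ)) :
    volume (sgn s ⁻¹' A) = volume A :=
  (mp_sgn s).measure_preimage_emb (hom s).measurableEmbedding A

theorem pos_iff {n : ℕ} (s : Fin n → ℤˣ) (z : Fin n → ℝ) :
    (∀ j, 0 ≤ z j) ↔ sgn s z ∈ orth s := by
  simp only [orth, sgn, Set.mem_setOf_eq]
  constructor
  · intro h i
    rw [← mul_assoc, sq_unit, one_mul]
    exact h i
  · intro h i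
    have := h i
    rwa [← mul_assoc, sq_unit, one_mul] at this

theorem insertNth_sgn {n : ℕ} (s : Fin (n + 1) → ℤˣ) (i : Fin (n + 1)) (z : Fin n → ℝ) :
    sgn s (i.insertNth (0 : ℝ) z : Fin (n + 1) → ℝ) =
      (i.insertNth (0 : ℝ) (sgn (fun j => s (i.succAbove j)) z) : Fin (n + 1) → ℝ) := by
  funext j
  refine Fin.succAboveCases i ?_ ?_ j
  · simp [sgn]
  · intro k
    simp [sgn]

end Refl

/-- the cone inequality in an arbitrary orthant, from the one in the positive orthant -/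
theorem cone_orth_of {n : ℕ}
    (cone_pos : ∀ {K : Set (Fin (n + 1) → ℝ)}, Convex ℝ K → IsCompact K →
      ∀ {x : Fin (n + 1) → ℝ}, x ∈ K → (∀ i, 0 ≤ x i) →
      ∑ i, x i * volume.real (hsec i K ∩ {z | ∀ j, 0 ≤ z j}) ≤
        ((n : ℝ) + 1) * volume.real (K ∩ {z | ∀ j, 0 ≤ z j}))
    {K : Set (Fin (n + 1) → ℝ)} (hK : Convex ℝ K) (hc : IsCompact K)
    (s : Fin (n + 1) → ℤˣ) {x : Fin (n + 1) → ℝ} (hx : x ∈ K) (hxs : x ∈ orth s) :
    ∑ i, |x i| * volume.real (hsec i K ∩ orth (fun j => s (i.succAbove j))) ≤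
      ((n : ℝ) + 1) * volume.real (K ∩ orth s) := by
  have hK' : Convex ℝ (sgn s ⁻¹' K) := by
    intro a ha b hb p q hp hq hpq
    have : sgn s (p • a + q • b) = p • sgn s a + q • sgn s b := by
      funext i
      simp only [sgn, Pi.add_apply, Pi.smul_apply, smul_eq_mul]
      ring
    rw [Set.mem_preimage, this]
    exact hK ha hb hp hq hpq
  have hc' : IsCompact (sgn s ⁻¹' K) := (Refl.hom s).isCompact_preimage.2 hc
  have hxm : sgn s x ∈ sgn s ⁻¹' K := by
    rw [Set.mem_preimage, Refl.sgn_sgn]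
    exact hx
  have hx0 : ∀ i, 0 ≤ sgn s x i := fun i => hxs i
  have key := cone_pos hK' hc' hxm hx0
  have h1 : ∀ i : Fin (n + 1), sgn s x i = |x i| := by
    intro i
    have h := hxs i
    have h2 : sgn s x i = ((s i : ℤ) : ℝ) * x i := rfl
    rw [h2, ← abs_of_nonneg h, abs_mul, Refl.abs_unit, one_mul]
  have h2 : volume (sgn s ⁻¹' K ∩ {z | ∀ j, 0 ≤ z j}) = volume (K ∩ orth s) := by
    rw [← Refl.vol_pre s (K ∩ orth s)]
    congr 1
    ext z
    simp only [Set.mem_inter_iff, Set.mem_preimage, Set.mem_setOf_eq]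
    rw [Refl.pos_iff s z]
  have h3 : ∀ i : Fin (n + 1), volume (hsec i (sgn s ⁻¹' K) ∩ {z | ∀ j, 0 ≤ z j}) =
      volume (hsec i K ∩ orth (fun j => s (i.succAbove j))) := by
    intro i
    rw [← Refl.vol_pre (fun j => s (i.succAbove j)) (hsec i K ∩ orth (fun j => s (i.succAbove j)))]
    congr 1
    ext z
    simp only [Set.mem_inter_iff, Set.mem_preimage, Set.mem_setOf_eq, hsec]
    rw [Refl.pos_iff (fun j => s (i.succAbove j)) z, Refl.insertNth_sgn]
  have h4 : volume.real (sgn s ⁻¹' K ∩ {z | ∀ j, 0 ≤ z j}) = volume.real (K ∩ orth s) := by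
    simp only [Measure.real, h2]
  have h5 : ∀ i : Fin (n + 1), volume.real (hsec i (sgn s ⁻¹' K) ∩ {z | ∀ j, 0 ≤ z j}) =
      volume.real (hsec i K ∩ orth (fun j => s (i.succAbove j))) := by
    intro i
    simp only [Measure.real, h3]
  rw [h4] at key
  refine le_trans (le_of_eq ?_) key
  refine Finset.sum_congr rfl fun i _ => ?_
  rw [h5, h1]

/-- [R1b] the cone inequality in an arbitrary orthant -/
theorem cone_orth {n : ℕ} {K : Set (Fin (n + 1) → ℝ)} (hK : Convex ℝ K) (hc : IsCompact K)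
    (s : Fin (n + 1) → ℤˣ) {x : Fin (n + 1) → ℝ} (hx : x ∈ K) (hxs : x ∈ orth s) :
    ∑ i, |x i| * volume.real (hsec i K ∩ orth (fun j => s (i.succAbove j))) ≤
      ((n : ℝ) + 1) * volume.real (K ∩ orth s) :=
  cone_orth_of (fun hK hc _ hx hx0 => cone_pos hK hc hx hx0) hK hc s hx hxs

end Vale.Agent.P248
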