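import Vale.Agent.P248.Cone
import Vale.Agent.P248.Refl
import Vale.Agent.P248.Box
import Vale.Agent.P248.Polar
import Vale.Agent.P248.Orth
import Vale.Agent.P248.Even

/-! P248: the core inequality, the induction, the half bound. -/

namespace Vale.Agent.P248

open MeasureTheory

namespace Core

/-- the orthant of a point -/
theorem exists_orth {n : ℕ} (x : Fin n → ℝ) : ∃ s : Fin n → ℤˣ, x ∈ orth s := by
  refine ⟨fun i => if 0 ≤ x i then 1 else -1, fun i => ?_⟩
  by_cases h : 0 ≤ x i
  · simp [h]
  · simp only [h, if_false]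
    push_cast
    linarith [not_le.1 h]

theorem proj_compact {n : ℕ} {L : Set (Fin (n + 1) → ℝ)} (hc : IsCompact L) (i : Fin (n + 1)) :
    IsCompact (proj i L) := by
  have h : proj i L = (fun y : Fin (n + 1) → ℝ => fun j => y (i.succAbove j)) '' L := by
    ext x
    constructor
    · rintro ⟨t, ht⟩
      refine ⟨_, ht, ?_⟩
      funext j
      simp
    · rintro ⟨y, hy, rfl⟩
      refine ⟨y i, ?_⟩
      have : (i.insertNth (y i) (fun j => y (i.succAbove j)) : Fin (n + 1) → ℝ) = y := by
        funext j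
        refine Fin.succAboveCases i ?_ (fun k => ?_) j <;> simp
      rw [this]
      exact hy
  rw [h]
  exact hc.image (continuous_pi fun j => continuous_apply _)

theorem vol_pos {n : ℕ} {K : Set (Fin n → ℝ)} (hc : IsCompact K)
    (h0 : (0 : Fin n → ℝ) ∈ interior K) : 0 < volume.real K := by
  have h1 : 0 < volume K :=
    lt_of_lt_of_le (isOpen_interior.measure_pos volume ⟨0, h0⟩) (measure_mono interior_subset)
  exact ENNReal.toReal_pos h1.ne' hc.measure_lt_top.ne

theorem cone_orth' {n : ℕ} {K : Set (Fin (n + 1) → ℝ)} (hK : Convex ℝ K) (hc : IsCompact K)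
    (s : Fin (n + 1) → ℤˣ) {x : Fin (n + 1) → ℝ} (hx : x ∈ K) (hxs : x ∈ orth s) :
    ∑ i, |x i| * volume.real (hsec i K ∩ orth (fun j => s (i.succAbove j))) ≤
      ((n : ℝ) + 1) * volume.real (K ∩ orth s) :=
  cone_orth_of (fun hK hc _ hx hx0 => cone_pos hK hc hx hx0) hK hc s hx hxs

end Core

/-- [R5] -/
theorem core {n : ℕ} {K : Set (Fin (n + 1) → ℝ)} (hK : Convex ℝ K) (hc : IsCompact K)
    (h0 : (0 : Fin (n + 1) → ℝ) ∈ interior K) {V : ℝ} {F : Fin (n + 1) → ℝ} (hF0 : ∀ i, 0 ≤ F i)
    (hF : ∀ i (s : Fin n → ℤˣ), F i ≤ volume.real (hsec i K ∩ orth s))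
    (hV : ∀ s : Fin (n + 1) → ℤˣ, volume.real (K ∩ orth s) ≤ V) :
    2 * ∑ i, F i * volume.real (polar (hsec i K)) ≤
      ((n : ℝ) + 1) ^ 2 * V * volume.real (polar K) := by
  have hn : (0 : ℝ) < (n : ℝ) + 1 := by positivity
  have hVpos : 0 < V := by
    by_contra hcon
    have h1 := orth_sum hc
    have h2 : ∑ s : Fin (n + 1) → ℤˣ, volume.real (K ∩ orth s) ≤ 0 :=
      Finset.sum_nonpos fun s _ => (hV s).trans (not_lt.1 hcon)
    have h3 := Core.vol_pos hc h0
    linarith
  set c : Fin (n + 1) → ℝ := fun i => F i / (((n : ℝ) + 1) * V) with hcdef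
  have hc0 : ∀ i, 0 ≤ c i := fun i => div_nonneg (hF0 i) (by positivity)
  have hb : ∀ y : Fin (n + 1) → ℝ, (∀ i, |y i| ≤ c i) → y ∈ polar K := by
    intro y hy x hx
    obtain ⟨s, hs⟩ := Core.exists_orth x
    have h1 := Core.cone_orth' hK hc s hx hs
    have h2 : ∑ i, |x i| * F i ≤ ((n : ℝ) + 1) * V := by
      calc ∑ i, |x i| * F i
          ≤ ∑ i, |x i| * volume.real (hsec i K ∩ orth (fun j => s (i.succAbove j))) :=
            Finset.sum_le_sum fun i _ => mul_le_mul_of_nonneg_left (hF i _) (abs_nonneg _)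
        _ ≤ _ := h1
        _ ≤ _ := mul_le_mul_of_nonneg_left (hV s) hn.le
    have h3 : ∑ i, x i * y i ≤ ∑ i, |x i| * c i := by
      refine Finset.sum_le_sum fun i _ => ?_
      calc x i * y i ≤ |x i * y i| := le_abs_self _
        _ = |x i| * |y i| := abs_mul _ _
        _ ≤ |x i| * c i := mul_le_mul_of_nonneg_left (hy i) (abs_nonneg _)
    have h4 : ∑ i, |x i| * c i = (∑ i, |x i| * F i) / (((n : ℝ) + 1) * V) := by
      rw [Finset.sum_div]
      refine Finset.sum_congr rfl fun i _ => ?_
      rw [hcdef]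
      ring
    have h5 : (∑ i, |x i| * F i) / (((n : ℝ) + 1) * V) ≤ 1 :=
      (div_le_one (by positivity)).2 h2
    linarith
  have hpc := polar_compact h0
  have hbox := box_bound (polar_convex K) hpc hc0 hb
  have hle : ∀ i, volume.real (polar (hsec i K)) ≤ volume.real (proj i (polar K)) := fun i =>
    measureReal_mono (polar_hsec hK h0 i) (Core.proj_compact hpc i).measure_lt_top.ne
  have h6 : 2 * ∑ i, F i * volume.real (polar (hsec i K)) ≤
      ((n : ℝ) + 1) * V * ∑ i, 2 * c i * volume.real (proj i (polar K)) := by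
    rw [Finset.mul_sum, Finset.mul_sum]
    refine Finset.sum_le_sum fun i _ => ?_
    have h7 : ((n : ℝ) + 1) * V * (2 * c i * volume.real (proj i (polar K))) =
        2 * (F i * volume.real (proj i (polar K))) := by
      rw [hcdef]
      field_simp
    rw [h7]
    exact mul_le_mul_of_nonneg_left (mul_le_mul_of_nonneg_left (hle i) (hF0 i)) (by norm_num)
  calc 2 * ∑ i, F i * volume.real (polar (hsec i K))
      ≤ ((n : ℝ) + 1) * V * ∑ i, 2 * c i * volume.real (proj i (polar K)) := h6
    _ ≤ ((n : ℝ) + 1) * V * (((n : ℝ) + 1) * volume.real (polar K)) :=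
        mul_le_mul_of_nonneg_left hbox (by positivity)
    _ = _ := by ring

namespace Core

theorem sec_sec {n k l : ℕ} (e : Fin k ↪ Fin n) (f : Fin l ↪ Fin k) (K : Set (Fin n → ℝ)) :
    sec f (sec e K) = sec (f.trans e) K := by
  ext x
  simp only [sec, Set.mem_ofPred_eq]
  have : Function.extend e (Function.extend f x 0) 0 = Function.extend (f.trans e) x 0 := by
    funext i
    by_cases h : ∃ j, e j = i
    · obtain ⟨j, rfl⟩ := h
      rw [e.injective.extend_apply]
      by_cases h' : ∃ l', f l' = j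
      · obtain ⟨l', rfl⟩ := h'
        rw [f.injective.extend_apply]
        exact ((f.trans e).injective.extend_apply x 0 l').symm
      · rw [Function.extend_apply' _ _ _ h', Function.extend_apply']
        · rfl
        · rintro ⟨l', hl'⟩
          exact h' ⟨l', e.injective hl'⟩
    · rw [Function.extend_apply' _ _ _ h, Function.extend_apply']
      rintro ⟨l', hl'⟩
      exact h ⟨f l', hl'⟩
  rw [this]

theorem hsec_eq {n : ℕ} (i : Fin (n + 1)) (K : Set (Fin (n + 1) → ℝ)) :
    hsec i K = sec i.succAboveEmb K := by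
  ext x
  simp only [sec, hsec, Set.mem_ofPred_eq]
  have : (i.insertNth (0 : ℝ) x : Fin (n + 1) → ℝ) = Function.extend i.succAboveEmb x 0 := by
    funext j
    refine Fin.succAboveCases i ?_ (fun k => ?_) j
    · rw [Fin.insertNth_apply_same, Function.extend_apply']
      · rfl
      · rintro ⟨l, hl⟩
        exact Fin.succAbove_ne i l hl
    · rw [Fin.insertNth_apply_succAbove]
      exact (i.succAboveEmb.injective.extend_apply x 0 k).symm
  rw [this]

theorem equi_sec {n k : ℕ} {K : Set (Fin n → ℝ)} (he : Equi K) (e : Fin k ↪ Fin n) :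
    Equi (sec e K) := by
  intro l f s t
  rw [sec_sec]
  exact he l _ s t

theorem sec_refl {n : ℕ} (K : Set (Fin n → ℝ)) : sec (Function.Embedding.refl _) K = K := by
  ext x
  simp only [sec, Set.mem_ofPred_eq]
  have : Function.extend (Function.Embedding.refl (Fin n)) x 0 = x := by
    funext i
    exact (Function.Embedding.refl (Fin n)).injective.extend_apply x 0 i
  rw [this]

theorem card_sign (n : ℕ) : Fintype.card (Fin n → ℤˣ) = 2 ^ n := by
  simp

theorem equi_orth {n : ℕ} {K : Set (Fin n → ℝ)} (hc : IsCompact K) (he : Equi K)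
    (s : Fin n → ℤˣ) : volume.real (K ∩ orth s) = volume.real K / 2 ^ n := by
  have h1 := orth_sum hc
  have h2 : ∀ t : Fin n → ℤˣ, volume.real (K ∩ orth t) = volume.real (K ∩ orth s) := by
    intro t
    have h3 := he n (Function.Embedding.refl _) t s
    rw [sec_refl] at h3
    rw [measureReal_def, measureReal_def, h3]
  rw [Finset.sum_congr rfl (fun t _ => h2 t), Finset.sum_const, Finset.card_univ, card_sign,
    nsmul_eq_mul] at h1
  push_cast at h1
  rw [eq_div_iff (by positivity)]
  linarith

end Core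

/-- [T1] -/
theorem equi_bound {n : ℕ} {K : Set (Fin n → ℝ)} (hK : Convex ℝ K) (hc : IsCompact K)
    (h0 : (0 : Fin n → ℝ) ∈ interior K) (he : Equi K) :
    (4 : ℝ) ^ n / (n.factorial : ℝ) ≤ volume.real K * volume.real (polar K) := by
  induction n with
  | zero =>
    have hKu : K = Set.univ := by
      ext x
      refine ⟨fun _ => Set.mem_univ _, fun _ => ?_⟩
      have : x = 0 := Subsingleton.elim _ _
      rw [this]
      exact interior_subset h0
    have hpu : polar K = Set.univ := by
      ext y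
      simp [polar]
    have hv : volume.real (Set.univ : Set (Fin 0 → ℝ)) = 1 := by
      rw [measureReal_def, volume_pi, Measure.pi_of_empty]
      simp
    rw [hpu, hKu, hv]
    simp
  | succ n ih =>
    have hf := fun i => hsec_facts hK hc h0 i
    have he' : ∀ i, Equi (hsec i K) := fun i => by
      rw [Core.hsec_eq]
      exact Core.equi_sec he _
    have hI : ∀ i, (4 : ℝ) ^ n / (n.factorial : ℝ) ≤
        volume.real (hsec i K) * volume.real (polar (hsec i K)) := fun i =>
      ih (hf i).1 (hf i).2.1 (hf i).2.2 (he' i)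
    have h1 := core hK hc h0 (V := volume.real K / 2 ^ (n + 1))
      (F := fun i => volume.real (hsec i K) / 2 ^ n) (fun i => by positivity)
      (fun i s => (Core.equi_orth (hf i).2.1 (he' i) s).ge)
      (fun s => (Core.equi_orth hc he s).le)
    have h2 : 2 * ∑ i : Fin (n + 1), (4 : ℝ) ^ n / (n.factorial : ℝ) / 2 ^ n ≤
        2 * ∑ i : Fin (n + 1), volume.real (hsec i K) / 2 ^ n *
          volume.real (polar (hsec i K)) := by
      refine mul_le_mul_of_nonneg_left (Finset.sum_le_sum fun i _ => ?_) (by norm_num)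
      have h3 : volume.real (hsec i K) / 2 ^ n * volume.real (polar (hsec i K)) =
          volume.real (hsec i K) * volume.real (polar (hsec i K)) / 2 ^ n := by ring
      rw [h3]
      exact div_le_div_of_nonneg_right (hI i) (by positivity)
    have h4 := h2.trans h1
    rw [Finset.sum_const, Finset.card_univ, Fintype.card_fin, nsmul_eq_mul] at h4
    push_cast at h4
    have hn : (0 : ℝ) < (n : ℝ) + 1 := by positivity
    have hfac : (0 : ℝ) < (n.factorial : ℝ) := by exact_mod_cast n.factorial_pos
    have h5 : (((n + 1).factorial : ℕ) : ℝ) = ((n : ℝ) + 1) * (n.factorial : ℝ) := by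
      rw [Nat.factorial_succ]
      push_cast
      ring
    rw [h5, div_le_iff₀ (by positivity)]
    have h6 : 2 * (((n : ℝ) + 1) * ((4 : ℝ) ^ n / (n.factorial : ℝ) / 2 ^ n)) *
        (2 * 2 ^ n * (n.factorial : ℝ)) / ((n : ℝ) + 1) = 4 ^ (n + 1) := by
      field_simp
      ring
    have h7 : ((n : ℝ) + 1) ^ 2 * (volume.real K / 2 ^ (n + 1)) * volume.real (polar K) *
        (2 * 2 ^ n * (n.factorial : ℝ)) / ((n : ℝ) + 1) =
        volume.real K * volume.real (polar K) * (((n : ℝ) + 1) * (n.factorial : ℝ)) := by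
      field_simp
      ring
    rw [← h6, ← h7]
    exact div_le_div_of_nonneg_right (mul_le_mul_of_nonneg_right h4 (by positivity)) hn.le

namespace Half

/-- the sections of a body invariant under even sign changes are unconditional -/
theorem hsec_uncond {n : ℕ} {K : Set (Fin (n + 1) → ℝ)}
    (hs : ∀ s : Fin (n + 1) → ℤˣ, ∏ i, s i = 1 → ∀ x ∈ K, sgn s x ∈ K) (i : Fin (n + 1))
    (s : Fin n → ℤˣ) : ∀ x ∈ hsec i K, sgn s x ∈ hsec i K := by
  intro x hx
  have h1 : ∏ j, (i.insertNth (∏ j, s j) s : Fin (n + 1) → ℤˣ) j = 1 := by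
    rw [Fin.prod_univ_succAbove _ i]
    simp only [Fin.insertNth_apply_same, Fin.insertNth_apply_succAbove]
    exact Int.units_mul_self _
  have h2 := hs _ h1 _ hx
  have h3 : sgn (i.insertNth (∏ j, s j) s : Fin (n + 1) → ℤˣ)
      (i.insertNth (0 : ℝ) x : Fin (n + 1) → ℝ) =
      (i.insertNth (0 : ℝ) (sgn s x) : Fin (n + 1) → ℝ) := by
    funext j
    refine Fin.succAboveCases i ?_ (fun k => ?_) j
    · simp [sgn]
    · simp [sgn]
  rw [h3] at h2
  exact h2

/-- unconditional bodies are equipartitioned -/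
theorem equi_of_uncond {n : ℕ} {K : Set (Fin n → ℝ)}
    (hs : ∀ s : Fin n → ℤˣ, ∀ x ∈ K, sgn s x ∈ K) : Equi K := by
  intro k e s t
  have h1 : ∀ u : Fin k → ℤˣ, ∀ x ∈ sec e K, sgn u x ∈ sec e K := by
    intro u x hx
    have h2 := hs (Function.extend e u 1) _ hx
    have h3 : sgn (Function.extend e u 1) (Function.extend e x 0) =
        Function.extend e (sgn u x) 0 := by
      funext i
      by_cases h : ∃ j, e j = i
      · obtain ⟨j, rfl⟩ := h
        simp only [sgn]
        rw [e.injective.extend_apply, e.injective.extend_apply, e.injective.extend_apply]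
        rfl
      · simp only [sgn]
        rw [Function.extend_apply' _ _ _ h, Function.extend_apply' _ _ _ h,
          Function.extend_apply' _ _ _ h]
        simp
    rw [h3] at h2
    exact h2
  have h4 := orth_sgn (K := sec e K) (fun i => s i * t i) t (h1 _)
  have h5 : (fun i => s i * t i * t i) = s := by
    funext i
    rw [mul_assoc, Int.units_mul_self, mul_one]
  rw [h5] at h4
  exact h4

/-- every orthant part is at most `2^(-n)` of the volume -/
theorem orth_le {n : ℕ} {K : Set (Fin (n + 1) → ℝ)} (hc : IsCompact K)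
    (hs : ∀ s : Fin (n + 1) → ℤˣ, ∏ i, s i = 1 → ∀ x ∈ K, sgn s x ∈ K)
    (s : Fin (n + 1) → ℤˣ) : volume.real (K ∩ orth s) ≤ volume.real K / 2 ^ n := by
  have hsum := orth_sum hc
  -- same parity, same volume
  have h1 : ∀ t : Fin (n + 1) → ℤˣ, ∏ i, t i = ∏ i, s i →
      volume.real (K ∩ orth t) = volume.real (K ∩ orth s) := by
    intro t ht
    have h2 : ∏ i, (t i * s i) = 1 := by
      rw [Finset.prod_mul_distrib, ht, Int.units_mul_self]
    have h3 := orth_sgn (K := K) (fun i => t i * s i) s (hs _ h2)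
    have h4 : (fun i => t i * s i * s i) = t := by
      funext i
      rw [mul_assoc, Int.units_mul_self, mul_one]
    rw [h4] at h3
    rw [measureReal_def, measureReal_def, h3]
  let u : Fin (n + 1) → ℤˣ := Function.update 1 0 (-1)
  have hu : ∏ i, u i = -1 := by
    rw [Finset.prod_update_of_mem (Finset.mem_univ _)]
    simp
  have hsum2 : ∑ t : Fin (n + 1) → ℤˣ, volume.real (K ∩ orth (fun i => u i * t i)) =
      volume.real K := by
    rw [← hsum]
    exact Equiv.sum_comp (Equiv.mulLeft u) (fun t => volume.real (K ∩ orth t))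
  have h5 : ∀ t : Fin (n + 1) → ℤˣ, volume.real (K ∩ orth s) ≤
      volume.real (K ∩ orth t) + volume.real (K ∩ orth (fun i => u i * t i)) := by
    intro t
    by_cases ht : ∏ i, t i = ∏ i, s i
    · rw [h1 t ht]
      exact le_add_of_nonneg_right measureReal_nonneg
    · have h6 : ∏ i, (u i * t i) = ∏ i, s i := by
        rw [Finset.prod_mul_distrib, hu]
        rcases Int.units_eq_one_or (∏ i, t i) with h7 | h7 <;>
        rcases Int.units_eq_one_or (∏ i, s i) with h8 | h8 <;>
        simp_all
      rw [h1 _ h6]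
      exact le_add_of_nonneg_left measureReal_nonneg
  have h9 := Finset.sum_le_sum (fun t (_ : t ∈ Finset.univ) => h5 t)
  rw [Finset.sum_add_distrib, hsum, hsum2, Finset.sum_const, Finset.card_univ, Core.card_sign,
    nsmul_eq_mul] at h9
  push_cast at h9
  rw [le_div_iff₀ (by positivity)]
  rw [pow_succ] at h9
  nlinarith

end Half

/-- [R8] half of the bound for all bodies invariant under even sign changes -/
theorem half_bound {n : ℕ} {K : Set (Fin (n + 1) → ℝ)} (hK : Convex ℝ K) (hc : IsCompact K)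
    (h0 : (0 : Fin (n + 1) → ℝ) ∈ interior K)
    (hs : ∀ s : Fin (n + 1) → ℤˣ, ∏ i, s i = 1 → ∀ x ∈ K, sgn s x ∈ K) :
    (4 : ℝ) ^ (n + 1) / (2 * ((n + 1).factorial : ℝ)) ≤
      volume.real K * volume.real (polar K) := by
  have hf := fun i => hsec_facts hK hc h0 i
  have he' : ∀ i, Equi (hsec i K) := fun i => Half.equi_of_uncond (Half.hsec_uncond hs i)
  have hI : ∀ i, (4 : ℝ) ^ n / (n.factorial : ℝ) ≤
      volume.real (hsec i K) * volume.real (polar (hsec i K)) := fun i =>
    equi_bound (hf i).1 (hf i).2.1 (hf i).2.2 (he' i)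
  have h1 := core hK hc h0 (V := volume.real K / 2 ^ n)
    (F := fun i => volume.real (hsec i K) / 2 ^ n) (fun i => by positivity)
    (fun i s => (Core.equi_orth (hf i).2.1 (he' i) s).ge)
    (fun s => Half.orth_le hc hs s)
  have h2 : 2 * ∑ i : Fin (n + 1), (4 : ℝ) ^ n / (n.factorial : ℝ) / 2 ^ n ≤
      2 * ∑ i : Fin (n + 1), volume.real (hsec i K) / 2 ^ n *
        volume.real (polar (hsec i K)) := by
    refine mul_le_mul_of_nonneg_left (Finset.sum_le_sum fun i _ => ?_) (by norm_num)
    have h3 : volume.real (hsec i K) / 2 ^ n * volume.real (polar (hsec i K)) =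
        volume.real (hsec i K) * volume.real (polar (hsec i K)) / 2 ^ n := by ring
    rw [h3]
    exact div_le_div_of_nonneg_right (hI i) (by positivity)
  have h4 := h2.trans h1
  rw [Finset.sum_const, Finset.card_univ, Fintype.card_fin, nsmul_eq_mul] at h4
  push_cast at h4
  have hn : (0 : ℝ) < (n : ℝ) + 1 := by positivity
  have hfac : (0 : ℝ) < (n.factorial : ℝ) := by exact_mod_cast n.factorial_pos
  have h5 : (((n + 1).factorial : ℕ) : ℝ) = ((n : ℝ) + 1) * (n.factorial : ℝ) := by
    rw [Nat.factorial_succ]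
    push_cast
    ring
  rw [h5, div_le_iff₀ (by positivity)]
  have h6 : 2 * (((n : ℝ) + 1) * ((4 : ℝ) ^ n / (n.factorial : ℝ) / 2 ^ n)) *
      (2 * 2 ^ n * (n.factorial : ℝ)) / ((n : ℝ) + 1) = 4 ^ (n + 1) := by
    field_simp
    ring
  have h7 : ((n : ℝ) + 1) ^ 2 * (volume.real K / 2 ^ n) * volume.real (polar K) *
      (2 * 2 ^ n * (n.factorial : ℝ)) / ((n : ℝ) + 1) =
      volume.real K * volume.real (polar K) * (2 * (((n : ℝ) + 1) * (n.factorial : ℝ))) := by
    field_simp
  rw [← h6, ← h7]
  exact div_le_div_of_nonneg_right (mul_le_mul_of_nonneg_right h4 (by positivity)) hn.le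

end Vale.Agent.P248
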