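import Mathlib

/-!
P248: definitions.  Bodies in `ℝ^n = Fin n → ℝ` with Lebesgue measure.
-/

namespace Vale.Agent.P248

open MeasureTheory

/-- the polar `K° = {y : ⟨x, y⟩ ≤ 1 for all x ∈ K}` -/
def polar {n : ℕ} (K : Set (Fin n → ℝ)) : Set (Fin n → ℝ) :=
  {y | ∀ x ∈ K, ∑ i, x i * y i ≤ 1}

/-- the closed orthant of the sign vector `s` -/
def orth {n : ℕ} (s : Fin n → ℤˣ) : Set (Fin n → ℝ) := {x | ∀ i, 0 ≤ ((s i : ℤ) : ℝ) * x i}

/-- the section of `K` by the coordinate subspace of the coordinates `e 0, …, e (k-1)`, as a subset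
of `ℝ^k` -/
def sec {n k : ℕ} (e : Fin k ↪ Fin n) (K : Set (Fin n → ℝ)) : Set (Fin k → ℝ) :=
  {x | Function.extend e x 0 ∈ K}

/-- the coordinate hyperplanes cut `K`, and every section of `K` by a coordinate subspace, into
parts of equal volume -/
def Equi {n : ℕ} (K : Set (Fin n → ℝ)) : Prop :=
  ∀ (k : ℕ) (e : Fin k ↪ Fin n) (s t : Fin k → ℤˣ),
    volume (sec e K ∩ orth s) = volume (sec e K ∩ orth t)

/-- the section by the hyperplane `x_i = 0` -/
def hsec {n : ℕ} (i : Fin (n + 1)) (K : Set (Fin (n + 1) → ℝ)) : Set (Fin n → ℝ) :=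
  {x | (i.insertNth (0 : ℝ) x : Fin (n + 1) → ℝ) ∈ K}

/-- the projection along the coordinate `i` -/
def proj {n : ℕ} (i : Fin (n + 1)) (L : Set (Fin (n + 1) → ℝ)) : Set (Fin n → ℝ) :=
  {x | ∃ t : ℝ, (i.insertNth t x : Fin (n + 1) → ℝ) ∈ L}

/-- multiplication of the coordinates by the signs `s` -/
def sgn {n : ℕ} (s : Fin n → ℤˣ) (x : Fin n → ℝ) : Fin n → ℝ := fun i => ((s i : ℤ) : ℝ) * x i

end Vale.Agent.P248
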