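import Vale.Agent.P248.Defs

/-!
P248: convex bodies, the volume product, the symmetry classes.
-/

namespace Vale.Agent.P248

open MeasureTheory

/-- convex body -/
structure Body {n : ℕ} (K : Set (Fin n → ℝ)) : Prop where
  convex : Convex ℝ K
  compact : IsCompact K
  solid : (interior K).Nonempty

/-- the polar `(K - z)° = {y : ⟨x - z, y⟩ ≤ 1 for all x ∈ K}` -/
def polarAt {n : ℕ} (K : Set (Fin n → ℝ)) (z : Fin n → ℝ) : Set (Fin n → ℝ) :=
  {y | ∀ x ∈ K, ∑ i, (x i - z i) * y i ≤ 1}

/-- the volume product `P(K) = inf_{z ∈ int K} |K| |(K - z)°|` -/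
noncomputable def volProd {n : ℕ} (K : Set (Fin n → ℝ)) : ℝ :=
  ⨅ z : interior K, volume.real K * volume.real (polarAt K z)

/-- `K` is invariant under all even sign changes of the coordinates -/
def EvenInv {n : ℕ} (K : Set (Fin n → ℝ)) : Prop :=
  ∀ s : Fin n → ℤˣ, ∏ i, s i = 1 → ∀ x ∈ K, sgn s x ∈ K

/-- the quarter turn `(x_i, x_j) ↦ (-x_j, x_i)` in the plane of the coordinates `i ≠ j` -/
def turn {n : ℕ} (i j : Fin n) (x : Fin n → ℝ) : Fin n → ℝ :=
  fun k => if k = i then -x j else if k = j then x i else x k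

end Vale.Agent.P248
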