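import Vale.Agent.P248.Defs

/-!
P248, row R2: adding a segment in a coordinate direction (Fubini in the direction `i`).
-/

namespace Vale.Agent.P248

open MeasureTheory Set
open scoped Pointwise ENNReal

namespace Fat

variable {n : ℕ}

/-- the fibre in the direction `i` -/
def fib (i : Fin (n + 1)) (M : Set (Fin (n + 1) → ℝ)) (y : Fin n → ℝ) : Set ℝ :=
  {u | (i.insertNth u y : Fin (n + 1) → ℝ) ∈ M}

theorem volume_fib (i : Fin (n + 1)) {M : Set (Fin (n + 1) → ℝ)} (hM : MeasurableSet M) :
    volume M = ∫⁻ y : Fin n → ℝ, volume (fib i M y) := by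
  have hp := (volume_preserving_piFinSuccAbove (fun _ : Fin (n + 1) => ℝ) i).symm
  rw [← hp.measure_preimage_equiv M, Measure.volume_eq_prod, Measure.prod_apply_symm]
  · rfl
  · exact (MeasurableEquiv.measurable _) hM

theorem measurable_fib (i : Fin (n + 1)) {M : Set (Fin (n + 1) → ℝ)} (hM : MeasurableSet M) :
    Measurable (fun y : Fin n → ℝ => volume (fib i M y)) := by
  have h := measurable_measure_prodMk_right (μ := (volume : Measure ℝ))
    (s := (MeasurableEquiv.piFinSuccAbove (fun _ : Fin (n + 1) => ℝ) i).symm ⁻¹' M)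
    ((MeasurableEquiv.measurable _) hM)
  exact h

theorem proj_eq (i : Fin (n + 1)) (M : Set (Fin (n + 1) → ℝ)) :
    proj i M = (fun y : Fin (n + 1) → ℝ => i.removeNth y) '' M := by
  ext y
  constructor
  · rintro ⟨t, ht⟩
    exact ⟨_, ht, by simp⟩
  · rintro ⟨x, hx, rfl⟩
    exact ⟨x i, by simpa using hx⟩

theorem proj_compact (i : Fin (n + 1)) {M : Set (Fin (n + 1) → ℝ)} (hc : IsCompact M) :
    IsCompact (proj i M) := by
  rw [proj_eq]
  refine hc.image ?_
  exact continuous_pi fun j => continuous_apply _

theorem insert_add (i : Fin (n + 1)) (u t : ℝ) (y : Fin n → ℝ) :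
    (i.insertNth (u + t) y : Fin (n + 1) → ℝ) =
      (i.insertNth u y : Fin (n + 1) → ℝ) + t • (Pi.single i (1 : ℝ) : Fin (n + 1) → ℝ) := by
  ext j
  refine Fin.succAboveCases i ?_ (fun k => ?_) j
  · simp
  · simp [Fin.succAbove_ne]

theorem fib_compact (i : Fin (n + 1)) {M : Set (Fin (n + 1) → ℝ)} (hc : IsCompact M)
    (y : Fin n → ℝ) : IsCompact (fib i M y) := by
  have h1 : fib i M y ⊆ (fun x : Fin (n + 1) → ℝ => x i) '' M := by
    intro u hu
    exact ⟨_, hu, by simp⟩
  refine (hc.image (continuous_apply i)).of_isClosed_subset ?_ h1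
  refine hc.isClosed.preimage ?_
  refine continuous_pi fun j => ?_
  refine Fin.succAboveCases i ?_ (fun k => ?_) j
  · simp only [Fin.insertNth_apply_same]
    exact continuous_id
  · simpa using continuous_const

theorem fib_convex (i : Fin (n + 1)) {M : Set (Fin (n + 1) → ℝ)} (hM : Convex ℝ M)
    (y : Fin n → ℝ) : Convex ℝ (fib i M y) := by
  intro u hu v hv a b ha hb hab
  have h := hM hu hv ha hb hab
  have he : a • (i.insertNth u y : Fin (n + 1) → ℝ) + b • (i.insertNth v y : Fin (n + 1) → ℝ) =
      (i.insertNth (a • u + b • v) y : Fin (n + 1) → ℝ) := by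
    ext j
    refine Fin.succAboveCases i ?_ (fun k => ?_) j
    · simp
    · simp
      rw [← add_mul, hab, one_mul]
  rw [he] at h
  exact h

end Fat

open Fat in
/-- [R2] Fat.lean: adding a segment (Fubini in the direction `i`) -/
theorem fat {n : ℕ} {M : Set (Fin (n + 1) → ℝ)} (hM : Convex ℝ M) (hc : IsCompact M)
    (i : Fin (n + 1)) {c : ℝ} (h : 0 ≤ c) :
    ∃ M' : Set (Fin (n + 1) → ℝ), IsCompact M' ∧ Convex ℝ M' ∧ M ⊆ M' ∧
      (∀ y ∈ M', ∃ t : ℝ, |t| ≤ c ∧ Function.update y i (y i + t) ∈ M) ∧
      volume.real M + 2 * c * volume.real (proj i M) ≤ volume.real M' := by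
  set S : Set (Fin (n + 1) → ℝ) :=
    (fun t : ℝ => t • (Pi.single i (1 : ℝ) : Fin (n + 1) → ℝ)) '' Icc (-c) c with hS
  have hSc : IsCompact S := isCompact_Icc.image (continuous_id.smul continuous_const)
  have hSv : Convex ℝ S := by
    have hl : IsLinearMap ℝ (fun t : ℝ => t • (Pi.single i (1 : ℝ) : Fin (n + 1) → ℝ)) :=
      ⟨fun x y => add_smul x y _, fun a x => smul_assoc a x _⟩
    exact (convex_Icc (-c) c).is_linear_image hl
  have h0 : (0 : Fin (n + 1) → ℝ) ∈ S := ⟨0, ⟨by linarith, h⟩, by simp⟩
  have hM'c : IsCompact (M + S) := hc.add hSc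
  refine ⟨M + S, hM'c, hM.add hSv, ?_, ?_, ?_⟩
  · intro x hx
    exact ⟨x, hx, 0, h0, by simp⟩
  · rintro y ⟨m, hm, s, ⟨t, ht, rfl⟩, rfl⟩
    refine ⟨-t, ?_, ?_⟩
    · rw [abs_neg, abs_le]
      exact ht
    · have : Function.update (m + t • (Pi.single i (1 : ℝ) : Fin (n + 1) → ℝ)) i
          ((m + t • (Pi.single i (1 : ℝ) : Fin (n + 1) → ℝ)) i + -t) = m := by
        ext j
        by_cases hj : j = i
        · subst hj
          simp
        · simp [hj]
      change Function.update (m + t • (Pi.single i (1 : ℝ) : Fin (n + 1) → ℝ)) i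
          ((m + t • (Pi.single i (1 : ℝ) : Fin (n + 1) → ℝ)) i + -t) ∈ M
      rw [this]
      exact hm
  · have hpc : IsCompact (proj i M) := proj_compact i hc
    have key : ∀ y : Fin n → ℝ, volume (fib i M y) +
        (proj i M).indicator (fun _ => ENNReal.ofReal (2 * c)) y ≤ volume (fib i (M + S) y) := by
      intro y
      by_cases hy : y ∈ proj i M
      · rw [indicator_of_mem hy]
        have hne : (fib i M y).Nonempty := hy
        have hcon : IsConnected (fib i M y) := ⟨hne, (fib_convex i hM y).isPreconnected⟩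
        have hfc := fib_compact i hc y
        have hIcc := eq_Icc_of_connected_compact hcon hfc
        set a := sInf (fib i M y) with ha
        set b := sSup (fib i M y) with hb
        have hab : a ≤ b := by
          obtain ⟨u, hu⟩ := hne
          rw [hIcc] at hu
          exact hu.1.trans hu.2
        have hsub : Icc (a - c) (b + c) ⊆ fib i (M + S) y := by
          intro u hu
          have : ∃ t ∈ Icc (-c) c, u - t ∈ Icc a b := by
            rcases le_total u a with h1 | h1
            · exact ⟨u - a, ⟨by linarith [hu.1], by linarith⟩, by simp [hab]⟩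
            · rcases le_total u b with h2 | h2
              · exact ⟨0, ⟨by linarith, h⟩, by simpa using ⟨h1, h2⟩⟩
              · exact ⟨u - b, ⟨by linarith, by linarith [hu.2]⟩, by simp [hab]⟩
          obtain ⟨t, ht, htu⟩ := this
          rw [← hIcc] at htu
          refine ⟨_, htu, _, ⟨t, ht, rfl⟩, ?_⟩
          have := insert_add i (u - t) t y
          simpa using this.symm
        refine le_trans ?_ (measure_mono hsub)
        rw [hIcc, Real.volume_Icc, Real.volume_Icc, ← ENNReal.ofReal_add (by linarith) (by linarith)]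
        exact ENNReal.ofReal_le_ofReal (by linarith)
      · rw [indicator_of_notMem hy, add_zero]
        refine measure_mono fun u hu => ?_
        exact ⟨_, hu, 0, h0, by simp⟩
    have hmain : volume M + ENNReal.ofReal (2 * c) * volume (proj i M) ≤ volume (M + S) := by
      rw [volume_fib i hc.measurableSet, volume_fib i hM'c.measurableSet,
        ← lintegral_indicator_const hpc.measurableSet, ← lintegral_add_left
          (measurable_fib i hc.measurableSet)]
      exact lintegral_mono key
    have hfin : volume (M + S) ≠ ∞ := hM'c.measure_lt_top.ne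
    have hfin1 : volume M ≠ ∞ := hc.measure_lt_top.ne
    have hfin2 : volume (proj i M) ≠ ∞ := hpc.measure_lt_top.ne
    have := ENNReal.toReal_mono hfin hmain
    rw [ENNReal.toReal_add hfin1 (ENNReal.mul_ne_top ENNReal.ofReal_ne_top hfin2),
      ENNReal.toReal_mul, ENNReal.toReal_ofReal (by linarith)] at this
    exact this

end Vale.Agent.P248
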