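import Mathlib

/-! P248: the numerical inequality. -/

namespace Vale.Agent.P248

namespace Num

theorem pow_bound (m : ℕ) (hm : 1 ≤ m) : ((m : ℝ) + 1) ^ m ≤ 2.7182818286 * (m : ℝ) ^ m := by
  have hm' : (0 : ℝ) < m := by exact_mod_cast hm
  have h1 : (1 + 1 / (m : ℝ)) ^ m ≤ Real.exp 1 := by
    have h2 : 1 + 1 / (m : ℝ) ≤ Real.exp (1 / m) := by
      have := Real.add_one_le_exp (1 / (m : ℝ))
      linarith
    calc (1 + 1 / (m : ℝ)) ^ m ≤ (Real.exp (1 / m)) ^ m :=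
          pow_le_pow_left₀ (by positivity) h2 m
      _ = Real.exp 1 := by
          rw [← Real.exp_nat_mul]
          congr 1
          field_simp
  have h3 : ((m : ℝ) + 1) ^ m = (1 + 1 / (m : ℝ)) ^ m * (m : ℝ) ^ m := by
    rw [← mul_pow]
    congr 1
    field_simp
  rw [h3]
  exact mul_le_mul_of_nonneg_right (h1.trans Real.exp_one_lt_d9.le) (by positivity)

theorem main (n : ℕ) (hn : 5 ≤ n) :
    2 * ((n : ℝ) + 1) ^ (n + 1) < 4 ^ n * (n.factorial : ℝ) := by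
  induction n, hn using Nat.le_induction with
  | base =>
    norm_num [Nat.factorial]
  | succ n hn ih =>
    have hn' : (5 : ℝ) ≤ n := by exact_mod_cast hn
    have h1 := pow_bound (n + 1) (by omega)
    have h2 : (((n + 1).factorial : ℕ) : ℝ) = ((n : ℝ) + 1) * (n.factorial : ℝ) := by
      rw [Nat.factorial_succ]
      push_cast
      ring
    rw [h2]
    push_cast at h1 ⊢
    have h3 : 2 * ((n : ℝ) + 1 + 1) ^ (n + 1 + 1) ≤
        2 * (2.7182818286 * ((n : ℝ) + 1) ^ (n + 1)) * ((n : ℝ) + 2) := by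
      rw [pow_succ]
      have h4 : (n : ℝ) + 1 + 1 = (n : ℝ) + 2 := by ring
      rw [h4] at h1 ⊢
      nlinarith [h1]
    have h5 : (0 : ℝ) < ((n : ℝ) + 1) ^ (n + 1) := by positivity
    have h6 : 2.7182818286 * ((n : ℝ) + 2) ≤ 4 * ((n : ℝ) + 1) := by linarith
    calc 2 * ((n : ℝ) + 1 + 1) ^ (n + 1 + 1)
        ≤ 2 * (2.7182818286 * ((n : ℝ) + 1) ^ (n + 1)) * ((n : ℝ) + 2) := h3
      _ = 2 * ((n : ℝ) + 1) ^ (n + 1) * (2.7182818286 * ((n : ℝ) + 2)) := by ring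
      _ ≤ 2 * ((n : ℝ) + 1) ^ (n + 1) * (4 * ((n : ℝ) + 1)) :=
          mul_le_mul_of_nonneg_left h6 (by positivity)
      _ < 4 ^ n * (n.factorial : ℝ) * (4 * ((n : ℝ) + 1)) :=
          mul_lt_mul_of_pos_right ih (by positivity)
      _ = 4 ^ (n + 1) * (((n : ℝ) + 1) * (n.factorial : ℝ)) := by ring

end Num

theorem num {n : ℕ} (hn : 4 ≤ n) : ((n : ℝ) + 1) ^ (n + 1) / ((n.factorial : ℝ)) ^ 2 <
    (1 + (((n : ℝ) - 2) / n) ^ n) / 2 * (4 ^ n / (n.factorial : ℝ)) := by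
  have hfac : (0 : ℝ) < (n.factorial : ℝ) := by exact_mod_cast n.factorial_pos
  rcases Nat.eq_or_lt_of_le hn with h | h
  · subst h
    norm_num [Nat.factorial]
  · have h1 := Num.main n h
    have h2 : (0 : ℝ) ≤ (((n : ℝ) - 2) / n) ^ n := by
      have : (4 : ℝ) ≤ n := by exact_mod_cast hn
      apply pow_nonneg
      apply div_nonneg <;> linarith
    have h3 : ((n : ℝ) + 1) ^ (n + 1) / ((n.factorial : ℝ)) ^ 2 <
        1 / 2 * (4 ^ n / (n.factorial : ℝ)) := by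
      rw [div_lt_iff₀ (by positivity)]
      have h4 : 1 / 2 * (4 ^ n / (n.factorial : ℝ)) * (n.factorial : ℝ) ^ 2 =
          1 / 2 * (4 ^ n * (n.factorial : ℝ)) := by
        field_simp
      rw [h4]
      linarith
    have h5 : (0 : ℝ) < 4 ^ n / (n.factorial : ℝ) := by positivity
    calc ((n : ℝ) + 1) ^ (n + 1) / ((n.factorial : ℝ)) ^ 2
        < 1 / 2 * (4 ^ n / (n.factorial : ℝ)) := h3
      _ ≤ (1 + (((n : ℝ) - 2) / n) ^ n) / 2 * (4 ^ n / (n.factorial : ℝ)) :=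
          mul_le_mul_of_nonneg_right (by linarith) h5.le

end Vale.Agent.P248
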