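import Vale.Agent.P248.Defs

/-! P248, row R7b: quarter turns in coordinate planes. -/

namespace Vale.Agent.P248

open MeasureTheory

namespace Quarter

variable {k : ℕ}

/-- the sign vector `-1` at `r`, `1` elsewhere -/
def fl (r : Fin k) : Fin k → ℤˣ := fun j => if j = r then -1 else 1

/-- the signed permutation `x ↦ sgn s (x ∘ π)` as a measurable equivalence -/
noncomputable def sgE (s : Fin k → ℤˣ) : (Fin k → ℝ) ≃ᵐ (Fin k → ℝ) :=
  MeasurableEquiv.piCongrRight (fun j => if s j = 1 then MeasurableEquiv.refl ℝ
    else MeasurableEquiv.neg ℝ)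

theorem sgE_apply (s : Fin k → ℤˣ) (x : Fin k → ℝ) : sgE s x = sgn s x := by
  funext j
  have h1 : sgE s x j = (if s j = 1 then MeasurableEquiv.refl ℝ else MeasurableEquiv.neg ℝ) (x j) :=
    rfl
  rw [h1]
  rcases Int.units_eq_one_or (s j) with h | h <;> simp [sgn, h]

theorem sgE_mp (s : Fin k → ℤˣ) : MeasurePreserving (sgE s) volume volume := by
  have h : ∀ j, MeasurePreserving ((if s j = 1 then MeasurableEquiv.refl ℝ
      else MeasurableEquiv.neg ℝ : ℝ ≃ᵐ ℝ) : ℝ → ℝ) volume volume := by
    intro j
    split_ifs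
    · exact MeasurePreserving.id _
    · exact Measure.measurePreserving_neg volume
  exact volume_preserving_pi h

theorem perm_mp (π : Equiv.Perm (Fin k)) :
    MeasurePreserving (fun x : Fin k → ℝ => x ∘ π) volume volume := by
  have := volume_measurePreserving_piCongrLeft (fun _ : Fin k => ℝ) π.symm
  convert this using 1
  funext x j
  simp [MeasurableEquiv.piCongrLeft, Equiv.piCongrLeft, Equiv.piCongrLeft']

/-- a signed permutation that preserves `M` (with its inverse) transports the orthant parts -/
theorem transport {M : Set (Fin k → ℝ)} (s₀ : Fin k → ℤˣ) (π : Equiv.Perm (Fin k))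
    (h1 : ∀ x ∈ M, sgn s₀ (x ∘ π) ∈ M) (h2 : ∀ x, sgn s₀ (x ∘ π) ∈ M → x ∈ M) (s : Fin k → ℤˣ) :
    volume (M ∩ orth (fun j => s₀ j * s (π j))) = volume (M ∩ orth s) := by
  let pe : (Fin k → ℝ) ≃ᵐ (Fin k → ℝ) := MeasurableEquiv.piCongrLeft (fun _ : Fin k => ℝ) π.symm
  have hpe : ∀ x, pe x = x ∘ π := by
    intro x
    funext j
    simp [pe, MeasurableEquiv.piCongrLeft, Equiv.piCongrLeft, Equiv.piCongrLeft']
  have hpm : MeasurePreserving pe volume volume :=
    volume_measurePreserving_piCongrLeft (fun _ : Fin k => ℝ) π.symm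
  have hg : MeasurePreserving (pe.trans (sgE s₀)) volume volume := (sgE_mp s₀).comp hpm
  have hap : ∀ x, (pe.trans (sgE s₀)) x = sgn s₀ (x ∘ π) := by
    intro x
    rw [MeasurableEquiv.trans_apply, sgE_apply, hpe]
  have hpre : (pe.trans (sgE s₀)) ⁻¹' (M ∩ orth (fun j => s₀ j * s (π j))) = M ∩ orth s := by
    ext x
    simp only [Set.mem_preimage, Set.mem_inter_iff, hap]
    refine and_congr ⟨h2 x, h1 x⟩ ?_
    have hsq : ∀ j, ((s₀ j : ℤ) : ℝ) * ((s₀ j : ℤ) : ℝ) = 1 := by
      intro j
      rcases Int.units_eq_one_or (s₀ j) with h | h <;> simp [h]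
    have key : ∀ j, (((s₀ j * s (π j) : ℤˣ) : ℤ) : ℝ) * sgn s₀ (x ∘ π) j =
        ((s (π j) : ℤ) : ℝ) * x (π j) := by
      intro j
      have : sgn s₀ (x ∘ π) j = ((s₀ j : ℤ) : ℝ) * x (π j) := rfl
      rw [this]
      push_cast
      linear_combination ((s (π j) : ℤ) : ℝ) * x (π j) * hsq j
    constructor
    · intro h j
      have := h (π.symm j)
      rw [key] at this
      simpa using this
    · intro h j
      rw [key]
      exact h (π j)
  rw [← hpre, hg.measure_preimage_equiv]

theorem sgn_fl_one {M : Set (Fin k → ℝ)} (r : Fin k)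
    (h : ∀ x ∈ M, Function.update x r (-x r) ∈ M) (s : Fin k → ℤˣ) :
    volume (M ∩ orth (fun j => fl r j * s j)) = volume (M ∩ orth s) := by
  have hu : ∀ x : Fin k → ℝ, sgn (fl r) (x ∘ (1 : Equiv.Perm (Fin k))) =
      Function.update x r (-x r) := by
    intro x
    funext j
    by_cases hj : j = r
    · subst hj; simp [sgn, fl]
    · simp [sgn, fl, hj]
  have h1 : ∀ x ∈ M, sgn (fl r) (x ∘ (1 : Equiv.Perm (Fin k))) ∈ M := by
    intro x hx
    rw [hu]
    exact h x hx
  have h2 : ∀ x, sgn (fl r) (x ∘ (1 : Equiv.Perm (Fin k))) ∈ M → x ∈ M := by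
    intro x hx
    rw [hu] at hx
    have := h _ hx
    simpa using this
  exact transport (fl r) 1 h1 h2 s

theorem turn {M : Set (Fin k → ℝ)} {r r' : Fin k} (hne : r' ≠ r)
    (h : ∀ x ∈ M, (fun j => if j = r then -x r' else if j = r' then x r else x j) ∈ M)
    (h' : ∀ x ∈ M, (fun j => if j = r' then -x r else if j = r then x r' else x j) ∈ M)
    (s : Fin k → ℤˣ) :
    volume (M ∩ orth (fun j => fl r j * s (Equiv.swap r r' j))) = volume (M ∩ orth s) := by
  have hu : ∀ x : Fin k → ℝ, sgn (fl r) (x ∘ (Equiv.swap r r')) =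
      fun j => if j = r then -x r' else if j = r' then x r else x j := by
    intro x
    funext j
    by_cases hj : j = r
    · subst hj; simp [sgn, fl]
    · by_cases hj' : j = r'
      · subst hj'; simp [sgn, fl, hj]
      · simp [sgn, fl, hj, hj', Equiv.swap_apply_of_ne_of_ne hj hj']
  refine transport (fl r) _ (fun x hx => ?_) (fun x hx => ?_) s
  · rw [hu]
    exact h x hx
  · rw [hu] at hx
    have := h' _ hx
    convert this using 1
    funext j
    by_cases hj : j = r
    · subst hj; simp [hne, hne.symm]
    · by_cases hj' : j = r'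
      · subst hj'; simp [hj]
      · simp [hj, hj']

theorem vc {M : Set (Fin k → ℝ)} {f g : Fin k → ℤˣ} (h : ∀ j, f j = g j) :
    volume (M ∩ orth f) = volume (M ∩ orth g) := by
  rw [funext h]

/-- flipping one sign -/
theorem flip {M : Set (Fin k → ℝ)}
    (hM : ∀ r, (∀ x ∈ M, Function.update x r (-x r) ∈ M) ∨ ∃ r', r' ≠ r ∧
      (∀ x ∈ M, (fun j => if j = r then -x r' else if j = r' then x r else x j) ∈ M) ∧
      (∀ x ∈ M, (fun j => if j = r' then -x r else if j = r then x r' else x j) ∈ M))
    (r : Fin k) (s : Fin k → ℤˣ) :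
    volume (M ∩ orth (fun j => fl r j * s j)) = volume (M ∩ orth s) := by
  rcases hM r with h | ⟨r', hne, h, h'⟩
  · exact sgn_fl_one r h s
  · by_cases hs : s r = s r'
    · rw [← turn hne h h' s]
      refine vc fun j => ?_
      by_cases hj : j = r
      · subst hj; simp [fl, hs]
      · by_cases hj' : j = r'
        · subst hj'; simp [fl, hj, hs]
        · simp [fl, hj, Equiv.swap_apply_of_ne_of_ne hj hj']
    · have hs' : s r' = - s r := by
        rcases Int.units_eq_one_or (s r) with h1 | h1 <;>
          rcases Int.units_eq_one_or (s r') with h2 | h2 <;> simp_all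
      rw [← turn hne.symm h' h s]
      refine vc fun j => ?_
      by_cases hj : j = r
      · subst hj; simp [fl, hs', hne.symm]
      · by_cases hj' : j = r'
        · subst hj'; simp [fl, hj, hs']
        · simp [fl, hj, hj', Equiv.swap_apply_of_ne_of_ne hj' hj]

/-- all orthants -/
theorem all {M : Set (Fin k → ℝ)}
    (hf : ∀ (r : Fin k) (s : Fin k → ℤˣ),
      volume (M ∩ orth (fun j => fl r j * s j)) = volume (M ∩ orth s))
    (s t : Fin k → ℤˣ) : volume (M ∩ orth s) = volume (M ∩ orth t) := by
  have key : ∀ S : Finset (Fin k), ∀ s : Fin k → ℤˣ,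
      volume (M ∩ orth (fun j => if j ∈ S then - s j else s j)) = volume (M ∩ orth s) := by
    intro S
    induction S using Finset.induction with
    | empty => intro s; simp
    | insert a S ha ih =>
      intro s
      rw [← ih s, ← hf a (fun j => if j ∈ S then - s j else s j)]
      refine vc fun j => ?_
      by_cases hj : j = a
      · subst hj; simp [fl, ha]
      · simp [fl, hj]
  rw [← key (Finset.univ.filter (fun j => s j ≠ t j)) t]
  refine vc fun j => ?_
  by_cases hj : s j = t j
  · simp [hj]
  · have : s j = - t j := by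
      rcases Int.units_eq_one_or (s j) with h1 | h1 <;>
        rcases Int.units_eq_one_or (t j) with h2 | h2 <;> simp_all
    simp [hj, this]

end Quarter

/-- [R7b] quarter turns in `k` coordinate planes: bodies in `ℂ^k` invariant under multiplication of
each complex coordinate by `i` -/
theorem equi_of_quarter {n : ℕ} {K : Set (Fin n → ℝ)} (p : Fin n → Fin n)
    (hp : ∀ i, p (p i) = i)
    (hq : ∀ i, p i ≠ i → ∀ x ∈ K, (fun j => if j = i then -x (p i) else if j = p i then x i
      else x j) ∈ K)
    (hf : ∀ i, p i = i → ∀ x ∈ K, Function.update x i (-x i) ∈ K) : Equi K := by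
  intro k e s t
  refine Quarter.all (fun r s => Quarter.flip (fun r => ?_) r s) s t
  have ext_at : ∀ (x : Fin k → ℝ) (j : Fin k), Function.extend e x (0 : Fin n → ℝ) (e j) = x j :=
    fun x j => e.injective.extend_apply _ _ _
  have ext_off : ∀ (x : Fin k → ℝ) (i : Fin n), i ∉ Set.range e →
      Function.extend e x (0 : Fin n → ℝ) i = 0 := by
    intro x i hi
    rw [Function.extend_apply' _ _ _ (fun ⟨a, ha⟩ => hi ⟨a, ha⟩)]
    rfl
  by_cases hpi : p (e r) = e r
  · left
    intro x hx
    have h1 := hf (e r) hpi _ hx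
    show Function.extend e (Function.update x r (-x r)) 0 ∈ K
    convert h1 using 1
    funext i
    by_cases hi : i ∈ Set.range e
    · obtain ⟨j, rfl⟩ := hi
      rw [ext_at]
      by_cases hj : j = r
      · subst hj; simp [ext_at]
      · rw [Function.update_of_ne hj, Function.update_of_ne (fun h => hj (e.injective h)), ext_at]
    · have hne : i ≠ e r := fun h => hi ⟨r, h.symm⟩
      rw [ext_off _ _ hi, Function.update_of_ne hne, ext_off _ _ hi]
  · by_cases hr : p (e r) ∈ Set.range e
    · right
      obtain ⟨r', hr'⟩ := hr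
      have hne : r' ≠ r := by
        rintro rfl
        exact hpi hr'.symm
      have hgen : ∀ a b : Fin k, a ≠ b → p (e a) = e b → ∀ x ∈ sec e K,
          (fun j => if j = a then -x b else if j = b then x a else x j) ∈ sec e K := by
        intro a b hab hpab x hx
        have h1 := hq (e a) (by rw [hpab]; exact fun h => hab (e.injective h).symm) _ hx
        show Function.extend e _ 0 ∈ K
        convert h1 using 1
        funext i
        by_cases hi : i ∈ Set.range e
        · obtain ⟨j, rfl⟩ := hi
          rw [ext_at, hpab, ext_at, ext_at, ext_at]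
          by_cases hj : j = a
          · subst hj; simp
          · by_cases hj' : j = b
            · subst hj'; simp [hj, e.injective.ne hj]
            · simp [hj, hj', e.injective.ne hj, e.injective.ne hj']
        · have hna : i ≠ e a := fun h => hi ⟨a, h.symm⟩
          have hnb : i ≠ e b := fun h => hi ⟨b, h.symm⟩
          rw [ext_off _ _ hi, hpab, if_neg hna, if_neg hnb, ext_off _ _ hi]
      refine ⟨r', hne, hgen r r' hne.symm hr'.symm, hgen r' r hne ?_⟩
      rw [hr', hp]
    · left
      intro x hx
      have h1 := hq (e r) hpi _ hx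
      have h2 := hq (e r) hpi _ h1
      show Function.extend e (Function.update x r (-x r)) 0 ∈ K
      convert h2 using 1
      funext i
      have hpr : p (e r) ≠ e r := hpi
      by_cases hi : i ∈ Set.range e
      · obtain ⟨j, rfl⟩ := hi
        have hjp : e j ≠ p (e r) := fun h => hr ⟨j, h⟩
        rw [ext_at]
        by_cases hj : j = r
        · subst hj
          simp [hpr, ext_at]
        · simp [hj, e.injective.ne hj, hjp, ext_at]
      · have hne : i ≠ e r := fun h => hi ⟨r, h.symm⟩
        rw [ext_off _ _ hi]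
        by_cases hip : i = p (e r)
        · subst hip
          simp [hpr, ext_off _ _ hi]
        · simp [hne, hip, ext_off _ _ hi]

end Vale.Agent.P248
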