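import Vale.Agent.P248.Ratio

/-! P248: the bound for all bodies invariant under even sign changes. -/

namespace Vale.Agent.P248

open MeasureTheory

namespace Ratio

/-- every orthant part is at most `2^(-n) / (1 + r)` of the volume -/
theorem orth_le {n : ℕ} {K : Set (Fin (n + 1) → ℝ)} (hK : Convex ℝ K) (hc : IsCompact K)
    (hs : ∀ s : Fin (n + 1) → ℤˣ, ∏ i, s i = 1 → ∀ x ∈ K, sgn s x ∈ K) (hn : 1 ≤ n)
    (s : Fin (n + 1) → ℤˣ) :
    volume.real (K ∩ orth s) ≤ volume.real K / (2 ^ n *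
      (1 + ((((n + 1 : ℕ) : ℝ) - 2) / ((n + 1 : ℕ) : ℝ)) ^ (n + 1))) := by
  set r : ℝ := ((((n + 1 : ℕ) : ℝ) - 2) / ((n + 1 : ℕ) : ℝ)) ^ (n + 1) with hr
  have hr0 : 0 ≤ r := by
    have h1 : (1 : ℝ) ≤ n := by exact_mod_cast hn
    rw [hr]
    apply pow_nonneg
    push_cast
    apply div_nonneg <;> linarith
  have hsum := orth_sum hc
  -- same parity, same volume
  have h1 : ∀ t t' : Fin (n + 1) → ℤˣ, ∏ i, t i = ∏ i, t' i →
      volume.real (K ∩ orth t) = volume.real (K ∩ orth t') := by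
    intro t t' ht
    have h2 : ∏ i, (t i * t' i) = 1 := by
      rw [Finset.prod_mul_distrib, ht, Int.units_mul_self]
    have h3 := orth_sgn (K := K) (fun i => t i * t' i) t' (hs _ h2)
    have h4 : (fun i => t i * t' i * t' i) = t := by
      funext i
      rw [mul_assoc, Int.units_mul_self, mul_one]
    rw [h4] at h3
    rw [measureReal_def, measureReal_def, h3]
  have hu : ∏ i, flip (0 : Fin (n + 1)) i = -1 := prod_flip 0
  have hsum2 : ∑ t : Fin (n + 1) → ℤˣ,
      volume.real (K ∩ orth (fun i => flip 0 i * t i)) = volume.real K := by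
    rw [← hsum]
    exact Equiv.sum_comp (Equiv.mulLeft (flip (0 : Fin (n + 1))))
      (fun t => volume.real (K ∩ orth t))
  have h5 : ∀ t : Fin (n + 1) → ℤˣ, (1 + r) * volume.real (K ∩ orth s) ≤
      volume.real (K ∩ orth t) + volume.real (K ∩ orth (fun i => flip 0 i * t i)) := by
    intro t
    by_cases ht : ∏ i, t i = ∏ i, s i
    · have h7 := orth_ratio hK hc hs (by omega) 0 t
      rw [h1 t s ht] at h7 ⊢
      linarith
    · have h6 : ∏ i, (flip 0 i * t i) = ∏ i, s i := by
        rw [Finset.prod_mul_distrib, hu]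
        rcases Int.units_eq_one_or (∏ i, t i) with h7 | h7 <;>
        rcases Int.units_eq_one_or (∏ i, s i) with h8 | h8 <;>
        simp_all
      have h7 := orth_ratio hK hc hs (by omega) 0 (fun i => flip 0 i * t i)
      have h8 : (fun j => flip 0 j * (flip 0 j * t j)) = t := by
        funext j
        rw [← mul_assoc, Int.units_mul_self, one_mul]
      rw [h8, h1 _ s h6] at h7
      rw [h1 _ s h6]
      linarith
  have h9 := Finset.sum_le_sum (fun t (_ : t ∈ Finset.univ) => h5 t)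
  rw [Finset.sum_add_distrib, hsum, hsum2, Finset.sum_const, Finset.card_univ, Core.card_sign,
    nsmul_eq_mul] at h9
  push_cast at h9
  rw [le_div_iff₀ (by positivity)]
  rw [pow_succ] at h9
  nlinarith

end Ratio

/-- the bound for all bodies invariant under even sign changes -/
theorem ratio_bound {n : ℕ} {K : Set (Fin (n + 1) → ℝ)} (hK : Convex ℝ K) (hc : IsCompact K)
    (h0 : (0 : Fin (n + 1) → ℝ) ∈ interior K)
    (hs : ∀ s : Fin (n + 1) → ℤˣ, ∏ i, s i = 1 → ∀ x ∈ K, sgn s x ∈ K) (hn : 1 ≤ n) :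
    (1 + ((((n + 1 : ℕ) : ℝ) - 2) / ((n + 1 : ℕ) : ℝ)) ^ (n + 1)) / 2 *
      ((4 : ℝ) ^ (n + 1) / ((n + 1).factorial : ℝ)) ≤
      volume.real K * volume.real (polar K) := by
  have hf := fun i => hsec_facts hK hc h0 i
  have he' : ∀ i, Equi (hsec i K) := fun i => Half.equi_of_uncond (Half.hsec_uncond hs i)
  have hI : ∀ i, (4 : ℝ) ^ n / (n.factorial : ℝ) ≤
      volume.real (hsec i K) * volume.real (polar (hsec i K)) := fun i =>
    equi_bound (hf i).1 (hf i).2.1 (hf i).2.2 (he' i)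
  have hV := fun s => Ratio.orth_le hK hc hs hn s
  set r : ℝ := ((((n + 1 : ℕ) : ℝ) - 2) / ((n + 1 : ℕ) : ℝ)) ^ (n + 1) with hr
  have hr0 : 0 ≤ r := by
    have h1 : (1 : ℝ) ≤ n := by exact_mod_cast hn
    rw [hr]
    apply pow_nonneg
    push_cast
    apply div_nonneg <;> linarith
  have h1 := core hK hc h0 (V := volume.real K / (2 ^ n * (1 + r)))
    (F := fun i => volume.real (hsec i K) / 2 ^ n) (fun i => by positivity)
    (fun i s => (Core.equi_orth (hf i).2.1 (he' i) s).ge) hV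
  have h2 : 2 * ∑ i : Fin (n + 1), (4 : ℝ) ^ n / (n.factorial : ℝ) / 2 ^ n ≤
      2 * ∑ i : Fin (n + 1), volume.real (hsec i K) / 2 ^ n *
        volume.real (polar (hsec i K)) := by
    refine mul_le_mul_of_nonneg_left (Finset.sum_le_sum fun i _ => ?_) (by norm_num)
    have h3 : volume.real (hsec i K) / 2 ^ n * volume.real (polar (hsec i K)) =
        volume.real (hsec i K) * volume.real (polar (hsec i K)) / 2 ^ n := by ring
    rw [h3]
    exact div_le_div_of_nonneg_right (hI i) (by positivity)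
  have h4 := h2.trans h1
  rw [Finset.sum_const, Finset.card_univ, Fintype.card_fin, nsmul_eq_mul] at h4
  have hn1 : (0 : ℝ) < (n : ℝ) + 1 := by positivity
  have hfac : (0 : ℝ) < (n.factorial : ℝ) := by exact_mod_cast n.factorial_pos
  have h5 : (((n + 1).factorial : ℕ) : ℝ) = ((n : ℝ) + 1) * (n.factorial : ℝ) := by
    rw [Nat.factorial_succ]
    push_cast
    ring
  rw [h5]
  have hr1 : 0 < 1 + r := by linarith
  have h6 : 2 * ((((n + 1 : ℕ) : ℝ)) * ((4 : ℝ) ^ n / (n.factorial : ℝ) / 2 ^ n)) *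
      (2 ^ n * (1 + r)) / ((n : ℝ) + 1) ^ 2 =
      (1 + r) / 2 * (4 ^ (n + 1) / (((n : ℝ) + 1) * (n.factorial : ℝ))) := by
    push_cast
    field_simp
    ring
  have h7 : ((n : ℝ) + 1) ^ 2 * (volume.real K / (2 ^ n * (1 + r))) * volume.real (polar K) *
      (2 ^ n * (1 + r)) / ((n : ℝ) + 1) ^ 2 =
      volume.real K * volume.real (polar K) := by
    field_simp
  rw [← h6, ← h7]
  exact div_le_div_of_nonneg_right (mul_le_mul_of_nonneg_right h4 (by positivity)) (by positivity)

end Vale.Agent.P248
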