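import Vale.Agent.P248.Polar

/-!
P248, row R9: if the centroid of the polar is the origin then the origin minimises the volume of
the polar.
-/

namespace Vale.Agent.P248

open MeasureTheory

namespace SantaloAux

/-- the linear form `⟨z, ·⟩` -/
noncomputable def lf {n : ℕ} (z : Fin n → ℝ) : (Fin n → ℝ) →L[ℝ] ℝ :=
  ∑ i, (z i) • (ContinuousLinearMap.proj i : (Fin n → ℝ) →L[ℝ] ℝ)

theorem lf_apply {n : ℕ} (z y : Fin n → ℝ) : lf z y = ∑ i, z i * y i := by
  simp [lf]

theorem lf_lt {n : ℕ} {K : Set (Fin n → ℝ)} {z : Fin n → ℝ} (hz : z ∈ interior K)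
    {y : Fin n → ℝ} (hy : y ∈ polar K) : lf z y < 1 := by
  by_contra hcon
  push Not at hcon
  have hcont : Continuous (fun t : ℝ => t • z) := by fun_prop
  have hopen : IsOpen ((fun t : ℝ => t • z) ⁻¹' interior K) := isOpen_interior.preimage hcont
  have h1 : (1 : ℝ) ∈ (fun t : ℝ => t • z) ⁻¹' interior K := by
    change (1 : ℝ) • z ∈ interior K
    rw [one_smul]
    exact hz
  obtain ⟨ε, hε, hball⟩ := Metric.isOpen_iff.1 hopen 1 h1
  have h2 : (1 + ε / 2) ∈ (fun t : ℝ => t • z) ⁻¹' interior K := by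
    apply hball
    rw [Metric.mem_ball, Real.dist_eq]
    have : 1 + ε / 2 - 1 = ε / 2 := by ring
    rw [this, abs_of_pos (by positivity)]
    linarith
  have h2' : (1 + ε / 2) • z ∈ interior K := h2
  have h3 := hy _ (interior_subset h2')
  have h4 : ∑ i, ((1 + ε / 2) • z) i * y i = (1 + ε / 2) * lf z y := by
    rw [lf_apply, Finset.mul_sum]
    refine Finset.sum_congr rfl fun i _ => ?_
    simp only [Pi.smul_apply, smul_eq_mul]
    ring
  rw [h4] at h3
  nlinarith

/-- the map `y ↦ y / (1 - ⟨z, y⟩)` -/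
noncomputable def phi {n : ℕ} (z y : Fin n → ℝ) : Fin n → ℝ := (1 - lf z y)⁻¹ • y

/-- its derivative -/
noncomputable def dphi {n : ℕ} (z y : Fin n → ℝ) : (Fin n → ℝ) →L[ℝ] (Fin n → ℝ) :=
  (1 - lf z y)⁻¹ • (ContinuousLinearMap.id ℝ (Fin n → ℝ) + (lf z).smulRight ((1 - lf z y)⁻¹ • y))

theorem hasFDerivAt_phi {n : ℕ} (z y : Fin n → ℝ) (h : 1 - lf z y ≠ 0) :
    HasFDerivAt (phi z) (dphi z y) y := by
  have h1 : HasFDerivAt (fun y => 1 - lf z y) (-(lf z)) y := by
    have := (lf z).hasFDerivAt (x := y)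
    simpa using this.const_sub 1
  have h2 : HasFDerivAt (fun y => (1 - lf z y)⁻¹) ((-((1 - lf z y) ^ 2)⁻¹) • (-(lf z))) y :=
    (hasDerivAt_inv h).comp_hasFDerivAt y h1
  have h3 := h2.smul (hasFDerivAt_id (𝕜 := ℝ) y)
  refine h3.congr_fderiv ?_
  ext v i
  simp only [dphi, id, ContinuousLinearMap.add_apply, ContinuousLinearMap.smul_apply,
    ContinuousLinearMap.smulRight_apply, ContinuousLinearMap.neg_apply, Pi.add_apply,
    Pi.smul_apply, smul_eq_mul, ContinuousLinearMap.id_apply]
  field_simp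
  try ring

theorem det_dphi {n : ℕ} (z y : Fin n → ℝ) (h : 1 - lf z y ≠ 0) :
    (dphi z y).det = ((1 - lf z y)⁻¹) ^ (n + 1) := by
  have h1 : ((dphi z y : (Fin n → ℝ) →L[ℝ] (Fin n → ℝ)) : (Fin n → ℝ) →ₗ[ℝ] (Fin n → ℝ)) =
      (1 - lf z y)⁻¹ • LinearMap.transvection (lf z : (Fin n → ℝ) →ₗ[ℝ] ℝ)
        ((1 - lf z y)⁻¹ • y) := by
    ext v i
    simp only [dphi, LinearMap.transvection.apply, LinearMap.coe_comp, Function.comp_apply,
      ContinuousLinearMap.coe_coe, ContinuousLinearMap.coe_smul', Pi.smul_apply, smul_eq_mul,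
      LinearMap.smul_apply]
    simp
    try ring
  rw [ContinuousLinearMap.det, h1, LinearMap.det_smul, LinearMap.transvection.det]
  simp only [Module.finrank_fin_fun, ContinuousLinearMap.coe_coe, map_smul, smul_eq_mul]
  rw [pow_succ]
  congr 1
  field_simp
  ring

theorem bern {u : ℝ} (hu : 0 < u) (n : ℕ) :
    1 + ((n : ℝ) + 1) * (1 - u) ≤ (u⁻¹) ^ (n + 1) := by
  have ha : 0 < u⁻¹ := inv_pos.2 hu
  have h1 := one_add_mul_le_pow (a := u⁻¹ - 1) (by linarith) (n + 1)
  have h2 : 1 + (u⁻¹ - 1) = u⁻¹ := by ring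
  rw [h2] at h1
  have h3 : 1 - u ≤ u⁻¹ - 1 := by
    have h4 : u * u⁻¹ = 1 := mul_inv_cancel₀ hu.ne'
    nlinarith [mul_nonneg ha.le (sq_nonneg (u - 1)), h4]
  push_cast at h1
  have h5 : (0 : ℝ) ≤ (n : ℝ) + 1 := by positivity
  nlinarith [mul_le_mul_of_nonneg_left h3 h5]

end SantaloAux

open SantaloAux

theorem santalo {n : ℕ} {K : Set (Fin n → ℝ)} (hK : Convex ℝ K) (hc : IsCompact K)
    (h0 : (0 : Fin n → ℝ) ∈ interior K) (hcen : ∀ i, ∫ y in polar K, y i = 0)
    {z : Fin n → ℝ} (hz : z ∈ interior K) :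
    volume.real (polar K) ≤
      volume.real {y : Fin n → ℝ | ∀ x ∈ K, ∑ i, (x i - z i) * y i ≤ 1} := by
  have hPc : IsCompact (polar K) := polar_compact h0
  have hPm : MeasurableSet (polar K) := (polar_closed K).measurableSet
  have hpos : ∀ y ∈ polar K, 0 < 1 - lf z y := fun y hy => by
    have := lf_lt hz hy
    linarith
  -- the target is a polar of a translate
  have htr : {y : Fin n → ℝ | ∀ x ∈ K, ∑ i, (x i - z i) * y i ≤ 1} =
      polar ((fun x => x - z) '' K) := by
    ext y
    simp [polar]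
  have h0' : (0 : Fin n → ℝ) ∈ interior ((fun x => x - z) '' K) := by
    have h1 : (fun x => x - z) '' interior K ⊆ interior ((fun x => x - z) '' K) := by
      refine interior_maximal (Set.image_mono interior_subset) ?_
      have : (fun x : Fin n → ℝ => x - z) = (Homeomorph.subRight z) := by
        ext x
        rfl
      rw [this]
      exact (Homeomorph.subRight z).isOpenMap _ isOpen_interior
    exact h1 ⟨z, hz, sub_self z⟩
  have hQc : IsCompact {y : Fin n → ℝ | ∀ x ∈ K, ∑ i, (x i - z i) * y i ≤ 1} := by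
    rw [htr]
    exact polar_compact h0'
  -- the image of the polar
  have hsub : phi z '' polar K ⊆ {y : Fin n → ℝ | ∀ x ∈ K, ∑ i, (x i - z i) * y i ≤ 1} := by
    rintro _ ⟨y, hy, rfl⟩ x hx
    have hu := hpos y hy
    have h1 := hy x hx
    have h2 : ∑ i, (x i - z i) * (phi z y) i = (1 - lf z y)⁻¹ * (∑ i, x i * y i - lf z y) := by
      rw [lf_apply, ← Finset.sum_sub_distrib, Finset.mul_sum]
      refine Finset.sum_congr rfl fun i _ => ?_
      simp only [phi, Pi.smul_apply, smul_eq_mul, lf_apply]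
      ring
    rw [h2, inv_mul_le_iff₀ hu]
    linarith
  have hinj : Set.InjOn (phi z) (polar K) := by
    intro y hy y' hy' h
    have hu := hpos y hy
    have hu' := hpos y' hy'
    have h1 : lf z (phi z y) = (1 - lf z y)⁻¹ - 1 := by
      simp only [phi, map_smul, smul_eq_mul]
      field_simp
      ring
    have h2 : lf z (phi z y') = (1 - lf z y')⁻¹ - 1 := by
      simp only [phi, map_smul, smul_eq_mul]
      field_simp
      ring
    rw [h] at h1
    have h3 : (1 - lf z y)⁻¹ = (1 - lf z y')⁻¹ := by linarith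
    have h4 : (1 - lf z y)⁻¹ • y = (1 - lf z y')⁻¹ • y' := h
    rw [h3] at h4
    exact smul_right_injective _ (inv_pos.2 hu').ne' h4
  have himg := integral_image_eq_integral_abs_det_fderiv_smul volume hPm
    (fun y hy => (hasFDerivAt_phi z y (hpos y hy).ne').hasFDerivWithinAt) hinj
    (fun _ => (1 : ℝ))
  have hint1 : IntegrableOn (fun y => |(dphi z y).det| • (1 : ℝ)) (polar K) := by
    have hcont : ContinuousOn (fun y => |((1 - lf z y)⁻¹) ^ (n + 1)|) (polar K) := by
      refine ContinuousOn.abs (ContinuousOn.pow (ContinuousOn.inv₀ ?_ ?_) _)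
      · exact (continuous_const.sub (lf z).continuous).continuousOn
      · exact fun y hy => (hpos y hy).ne'
    refine (hcont.integrableOn_compact hPc).congr_fun ?_ hPm
    intro y hy
    simp only [det_dphi z y (hpos y hy).ne', smul_eq_mul, mul_one]
  have hint2 : ∀ i : Fin n, IntegrableOn (fun y : Fin n → ℝ => y i) (polar K) := fun i =>
    (continuous_apply i).continuousOn.integrableOn_compact hPc
  have hint3 : IntegrableOn (fun y : Fin n → ℝ => lf z y) (polar K) :=
    (lf z).continuous.continuousOn.integrableOn_compact hPc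
  have hlin : ∫ y in polar K, lf z y = 0 := by
    simp only [lf_apply]
    rw [integral_finsetSum _ (fun i _ => (hint2 i).const_mul (z i))]
    refine Finset.sum_eq_zero fun i _ => ?_
    rw [integral_const_mul, hcen i, mul_zero]
  have hone : IntegrableOn (fun _ : Fin n → ℝ => (1 : ℝ)) (polar K) :=
    continuous_const.continuousOn.integrableOn_compact hPc
  have hge : ∫ y in polar K, (1 + ((n : ℝ) + 1) * lf z y) ≤
      ∫ y in polar K, |(dphi z y).det| • (1 : ℝ) := by
    refine setIntegral_mono_on (hone.add (hint3.const_mul _)) hint1 hPm ?_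
    intro y hy
    rw [det_dphi z y (hpos y hy).ne', smul_eq_mul, mul_one]
    refine le_trans ?_ (le_abs_self _)
    have := bern (hpos y hy) n
    have h5 : 1 - (1 - lf z y) = lf z y := by ring
    rw [h5] at this
    exact this
  rw [integral_add hone (hint3.const_mul _), integral_const_mul, hlin, mul_zero, add_zero] at hge
  rw [← himg] at hge
  simp only [integral_const, smul_eq_mul, mul_one, measureReal_restrict_apply_univ] at hge
  exact hge.trans (measureReal_mono hsub hQc.measure_lt_top.ne)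

end Vale.Agent.P248
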