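import Vale.Agent.P248.Core

/-! P248: bodies invariant under even sign changes whose two kinds of orthants have equal volume. -/

namespace Vale.Agent.P248

open MeasureTheory

theorem equi_of_vol {n : ℕ} {K : Set (Fin n → ℝ)}
    (hs : ∀ s : Fin n → ℤˣ, ∏ i, s i = 1 → ∀ x ∈ K, sgn s x ∈ K)
    (t : Fin n → ℤˣ) (ht : ∏ i, t i = -1)
    (hg : volume (K ∩ orth t) = volume (K ∩ orth 1)) : Equi K := by
  intro k e
  by_cases hsurj : Function.Surjective e
  · -- full dimension
    set E : Fin k ≃ Fin n := Equiv.ofBijective e ⟨e.injective, hsurj⟩ with hE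
    have hEe : ∀ j, E j = e j := fun j => rfl
    have h1 : ∀ s s' : Fin n → ℤˣ, ∏ j, s j = ∏ j, s' j →
        volume (K ∩ orth s) = volume (K ∩ orth s') := by
      intro s s' hss
      have h2 : ∏ i, (s i * s' i) = 1 := by
        rw [Finset.prod_mul_distrib, hss, Int.units_mul_self]
      have h3 := orth_sgn (K := K) (fun i => s i * s' i) s' (hs _ h2)
      have h4 : (fun i => s i * s' i * s' i) = s := by
        funext i
        rw [mul_assoc, Int.units_mul_self, mul_one]
      rwa [h4] at h3
    have h5 : ∀ s : Fin n → ℤˣ, volume (K ∩ orth s) = volume (K ∩ orth 1) := by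
      intro s
      rcases Int.units_eq_one_or (∏ j, s j) with h | h
      · exact h1 s 1 (by rw [h]; simp)
      · rw [h1 s t (by rw [h, ht]), hg]
    have h6 : ∀ s : Fin k → ℤˣ, volume (sec e K ∩ orth s) =
        volume (K ∩ orth (fun i => s (E.symm i))) := by
      intro s
      have h7 := (volume_measurePreserving_piCongrLeft (fun _ : Fin n => ℝ) E).measure_preimage_emb
        (MeasurableEquiv.measurableEmbedding _) (K ∩ orth (fun i => s (E.symm i)))
      rw [← h7]
      congr 1
      ext x
      have h8 : (MeasurableEquiv.piCongrLeft (fun _ : Fin n => ℝ) E) x =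
          Function.extend e x 0 := by
        funext i
        obtain ⟨j, rfl⟩ := hsurj i
        rw [e.injective.extend_apply]
        exact Equiv.piCongrLeft_apply_apply (fun _ : Fin n => ℝ) E x j
      rw [Set.mem_preimage, h8]
      constructor
      · rintro ⟨hx, hxs⟩
        refine ⟨hx, fun i => ?_⟩
        obtain ⟨j, rfl⟩ := hsurj i
        rw [e.injective.extend_apply]
        have h9 := hxs j
        have h10 : E.symm (e j) = j := by rw [← hEe, E.symm_apply_apply]
        change 0 ≤ ((s (E.symm (e j)) : ℤ) : ℝ) * x j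
        rw [h10]
        exact h9
      · rintro ⟨hx, hxs⟩
        refine ⟨hx, fun j => ?_⟩
        have h9 : 0 ≤ ((s (E.symm (e j)) : ℤ) : ℝ) * Function.extend e x 0 (e j) := hxs (e j)
        have h10 : E.symm (e j) = j := by rw [← hEe, E.symm_apply_apply]
        rw [e.injective.extend_apply, h10] at h9
        exact h9
    intro s s'
    rw [h6, h6, h5, h5 (fun i => s' (E.symm i))]
  · -- a proper section is unconditional
    suffices H : ∀ s s' : Fin k → ℤˣ, volume (sec e K ∩ orth s) ≤ volume (sec e K ∩ orth s') from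
      fun s s' => le_antisymm (H s s') (H s' s)
    have hex : ∃ i₀, ∀ j, e j ≠ i₀ := by
      by_contra hcon
      push Not at hcon
      exact hsurj hcon
    obtain ⟨i₀, hi₀⟩ := hex
    intro s s'
    refine Ev.le_of_flip s s' ?_
    set σ : Fin k → ℤˣ := fun j => s j * s' j with hσ
    refine Ev.sec_flip e σ
      (fun i => if i = i₀ then ∏ j, σ j else Function.extend e σ 1 i) ?_ ?_
    · intro j
      rw [if_neg (hi₀ j), e.injective.extend_apply]
    · refine hs _ ?_
      have h1 : ∏ i, (if i = i₀ then ∏ j, σ j else Function.extend e σ 1 i) =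
          (∏ j, σ j) * ∏ i, Function.extend e σ 1 i := by
        rw [← Finset.mul_prod_erase Finset.univ _ (Finset.mem_univ i₀)]
        rw [← Finset.mul_prod_erase Finset.univ (fun i => Function.extend e σ 1 i)
          (Finset.mem_univ i₀)]
        have h2 : Function.extend e σ 1 i₀ = 1 := by
          rw [Function.extend_apply' _ _ _ (by rintro ⟨j, hj⟩; exact hi₀ j hj)]
          rfl
        rw [h2, one_mul, if_pos rfl]
        congr 1
        refine Finset.prod_congr rfl fun i hi => ?_
        rw [if_neg (Finset.ne_of_mem_erase hi)]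
      have h3 : ∏ i, Function.extend e σ 1 i = ∏ j, σ j := by
        rw [← Finset.prod_subset (Finset.subset_univ (Finset.univ.map e))]
        · rw [Finset.prod_map]
          refine Finset.prod_congr rfl fun j _ => ?_
          rw [e.injective.extend_apply]
        · intro i _ hi
          rw [Function.extend_apply' _ _ _ ?_]
          · rfl
          · rintro ⟨j, hj⟩
            exact hi (by rw [← hj]; exact Finset.mem_map_of_mem e (Finset.mem_univ j))
      rw [h1, h3]
      exact Ev.prod_units σ

/-- one step: the volume product against those of the hyperplane sections -/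
theorem step {n : ℕ} {K : Set (Fin (n + 1) → ℝ)} (hK : Convex ℝ K) (hc : IsCompact K)
    (h0 : (0 : Fin (n + 1) → ℝ) ∈ interior K)
    (h1 : ∀ s t : Fin (n + 1) → ℤˣ, volume (K ∩ orth s) = volume (K ∩ orth t))
    (h2 : ∀ i, ∀ s t : Fin n → ℤˣ, volume (hsec i K ∩ orth s) = volume (hsec i K ∩ orth t)) :
    4 / ((n : ℝ) + 1) ^ 2 * ∑ i, volume.real (hsec i K) * volume.real (polar (hsec i K)) ≤
      volume.real K * volume.real (polar K) := by
  have hpart : ∀ {m : ℕ} {M : Set (Fin m → ℝ)}, IsCompact M →
      (∀ s t : Fin m → ℤˣ, volume (M ∩ orth s) = volume (M ∩ orth t)) → ∀ s : Fin m → ℤˣ,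
      volume.real (M ∩ orth s) = volume.real M / 2 ^ m := by
    intro m M hM h s
    have h3 := orth_sum hM
    have h4 : ∀ t : Fin m → ℤˣ, volume.real (M ∩ orth t) = volume.real (M ∩ orth s) := by
      intro t
      rw [measureReal_def, measureReal_def, h t s]
    rw [Finset.sum_congr rfl (fun t _ => h4 t), Finset.sum_const, Finset.card_univ,
      Core.card_sign, nsmul_eq_mul] at h3
    push_cast at h3
    rw [eq_div_iff (by positivity)]
    linarith
  have hf := fun i => hsec_facts hK hc h0 i
  have h3 := core hK hc h0 (V := volume.real K / 2 ^ (n + 1))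
    (F := fun i => volume.real (hsec i K) / 2 ^ n) (fun i => by positivity)
    (fun i s => (hpart (hf i).2.1 (h2 i) s).ge) (fun s => (hpart hc h1 s).le)
  have h4 : 2 * ∑ i : Fin (n + 1), volume.real (hsec i K) / 2 ^ n *
      volume.real (polar (hsec i K)) =
      2 / 2 ^ n * ∑ i, volume.real (hsec i K) * volume.real (polar (hsec i K)) := by
    rw [Finset.mul_sum, Finset.mul_sum]
    refine Finset.sum_congr rfl fun i _ => ?_
    ring
  rw [h4] at h3
  have hn : (0 : ℝ) < (n : ℝ) + 1 := by positivity
  have h5 : 4 / ((n : ℝ) + 1) ^ 2 * ∑ i, volume.real (hsec i K) *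
      volume.real (polar (hsec i K)) =
      2 / 2 ^ n * (∑ i, volume.real (hsec i K) * volume.real (polar (hsec i K))) *
        (2 ^ (n + 1) / ((n : ℝ) + 1) ^ 2) := by
    field_simp
    ring
  have h6 : volume.real K * volume.real (polar K) =
      ((n : ℝ) + 1) ^ 2 * (volume.real K / 2 ^ (n + 1)) * volume.real (polar K) *
        (2 ^ (n + 1) / ((n : ℝ) + 1) ^ 2) := by
    field_simp
  rw [h5, h6]
  exact mul_le_mul_of_nonneg_right h3 (by positivity)

end Vale.Agent.P248
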