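import Vale.Agent.P248.Defs2
import Vale.Agent.P248.Cent
import Vale.Agent.P248.Num
import Vale.Agent.P248.Santalo
import Vale.Agent.P248.Ratio2
import Vale.Agent.P248.Quarter
import Vale.Agent.P248.Vol

/-! P248: assembly. -/

namespace Vale.Agent.P248

open MeasureTheory

namespace Final

theorem le_volProd {n : ℕ} {K : Set (Fin n → ℝ)} (hK : Body K)
    (h : ∀ i, ∃ s : Fin n → ℤˣ, s i = -1 ∧ ∀ x ∈ K, sgn s x ∈ K) {c : ℝ}
    (hc : c ≤ volume.real K * volume.real (polar K)) : c ≤ volProd K := by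
  have h0 := zero_interior hK.convex hK.solid h
  haveI : Nonempty (interior K) := ⟨⟨0, h0⟩⟩
  refine le_ciInf fun z => hc.trans ?_
  refine mul_le_mul_of_nonneg_left ?_ measureReal_nonneg
  refine santalo hK.convex hK.compact h0 (fun i => ?_) z.2
  obtain ⟨s, hsi, hs⟩ := h i
  exact cent s hs hsi

theorem even_flip {n : ℕ} {K : Set (Fin n → ℝ)} (hn : 2 ≤ n) (hs : EvenInv K) (i : Fin n) :
    ∃ s : Fin n → ℤˣ, s i = -1 ∧ ∀ x ∈ K, sgn s x ∈ K := by
  obtain ⟨j, hj⟩ : ∃ j : Fin n, j ≠ i := by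
    by_contra hcon
    push Not at hcon
    have h0 := hcon ⟨0, by omega⟩
    have h1 := hcon ⟨1, by omega⟩
    rw [← h1] at h0
    simp at h0
  refine ⟨fun k => Ratio.flip i k * Ratio.flip j k, ?_, hs _ ?_⟩
  · change Ratio.flip i i * Ratio.flip j i = -1
    rw [Ratio.flip_same, Ratio.flip_ne hj.symm]
    norm_num
  · rw [Finset.prod_mul_distrib, Ratio.prod_flip, Ratio.prod_flip]
    norm_num

theorem sgn_flip {n : ℕ} (i : Fin n) (x : Fin n → ℝ) :
    sgn (Ratio.flip i) x = Function.update x i (-x i) := by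
  funext k
  by_cases h : k = i
  · subst h
    simp [sgn, Ratio.flip_same]
  · simp [sgn, Ratio.flip_ne h, h]

theorem turn_flip {n : ℕ} {K : Set (Fin n → ℝ)} (p : Fin n → Fin n)
    (hq : ∀ i, p i ≠ i → ∀ x ∈ K, turn i (p i) x ∈ K)
    (hf : ∀ i, p i = i → ∀ x ∈ K, Function.update x i (-x i) ∈ K) (i : Fin n) :
    ∃ s : Fin n → ℤˣ, s i = -1 ∧ ∀ x ∈ K, sgn s x ∈ K := by
  by_cases hp : p i = i
  · refine ⟨Ratio.flip i, Ratio.flip_same i, fun x hx => ?_⟩
    rw [sgn_flip]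
    exact hf i hp x hx
  · refine ⟨fun k => Ratio.flip i k * Ratio.flip (p i) k, ?_, fun x hx => ?_⟩
    · change Ratio.flip i i * Ratio.flip (p i) i = -1
      rw [Ratio.flip_same, Ratio.flip_ne (Ne.symm hp)]
      norm_num
    · have h1 := hq i hp _ (hq i hp x hx)
      have h2 : turn i (p i) (turn i (p i) x) =
          sgn (fun k => Ratio.flip i k * Ratio.flip (p i) k) x := by
        funext k
        by_cases h3 : k = i
        · subst h3
          simp [turn, sgn, Ratio.flip_same, Ratio.flip_ne (Ne.symm hp), hp]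
        · by_cases h4 : k = p i
          · subst h4
            simp [turn, sgn, Ratio.flip_same, Ratio.flip_ne hp, hp]
          · simp [turn, sgn, Ratio.flip_ne h3, Ratio.flip_ne h4, h3, h4]
      rw [h2] at h1
      exact h1

end Final

theorem final_equi {n : ℕ} {K : Set (Fin n → ℝ)} (hK : Body K)
    (h0 : (0 : Fin n → ℝ) ∈ interior K) (he : Equi K) :
    (4 : ℝ) ^ n / (n.factorial : ℝ) ≤ volume.real K * volume.real (polar K) :=
  equi_bound hK.convex hK.compact h0 he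

theorem final_sym {n : ℕ} {K : Set (Fin n → ℝ)} (hK : Body K) (hs : ∀ x ∈ K, -x ∈ K)
    (he : Equi K) : (4 : ℝ) ^ n / (n.factorial : ℝ) ≤ volProd K := by
  have h : ∀ i : Fin n, ∃ s : Fin n → ℤˣ, s i = -1 ∧ ∀ x ∈ K, sgn s x ∈ K := by
    intro i
    refine ⟨fun _ => -1, rfl, fun x hx => ?_⟩
    have h1 : sgn (fun _ => -1) x = -x := by
      funext k
      simp [sgn]
    rw [h1]
    exact hs x hx
  exact Final.le_volProd hK h
    (final_equi hK (zero_interior hK.convex hK.solid h) he)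

theorem final_vol {n : ℕ} (hn : 2 ≤ n) {K : Set (Fin n → ℝ)} (hK : Body K) (hs : EvenInv K)
    (h : ∃ t : Fin n → ℤˣ, ∏ i, t i = -1 ∧ volume (K ∩ orth t) = volume (K ∩ orth 1)) :
    (4 : ℝ) ^ n / (n.factorial : ℝ) ≤ volProd K := by
  obtain ⟨t, ht, hv⟩ := h
  have h1 := Final.even_flip hn hs
  exact Final.le_volProd hK h1 (final_equi hK (zero_interior hK.convex hK.solid h1)
    (equi_of_vol hs t ht hv))

theorem final_even {n : ℕ} (hn : 2 ≤ n) {K : Set (Fin n → ℝ)} (hK : Body K) (hs : EvenInv K)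
    (h : ∃ (π : Equiv.Perm (Fin n)) (t : Fin n → ℤˣ), ∏ i, t i = -1 ∧
      ∀ x ∈ K, sgn t (x ∘ π) ∈ K) :
    (4 : ℝ) ^ n / (n.factorial : ℝ) ≤ volProd K := by
  obtain ⟨π, t, ht, hg⟩ := h
  have h1 := Final.even_flip hn hs
  exact Final.le_volProd hK h1 (final_equi hK (zero_interior hK.convex hK.solid h1)
    (equi_of_even hs π t ht hg))

theorem final_quarter {n : ℕ} {K : Set (Fin n → ℝ)} (hK : Body K) (p : Fin n → Fin n)
    (hp : ∀ i, p (p i) = i) (hq : ∀ i, p i ≠ i → ∀ x ∈ K, turn i (p i) x ∈ K)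
    (hf : ∀ i, p i = i → ∀ x ∈ K, Function.update x i (-x i) ∈ K) :
    (4 : ℝ) ^ n / (n.factorial : ℝ) ≤ volProd K := by
  have h1 := Final.turn_flip p hq hf
  exact Final.le_volProd hK h1 (final_equi hK (zero_interior hK.convex hK.solid h1)
    (equi_of_quarter p hp hq hf))

theorem final_ratio {n : ℕ} (hn : 2 ≤ n) {K : Set (Fin n → ℝ)} (hK : Body K) (hs : EvenInv K) :
    (1 + (((n : ℝ) - 2) / n) ^ n) / 2 * ((4 : ℝ) ^ n / (n.factorial : ℝ)) ≤ volProd K := by
  have h1 := Final.even_flip hn hs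
  obtain ⟨m, rfl⟩ : ∃ m, n = m + 1 := ⟨n - 1, by omega⟩
  exact Final.le_volProd hK h1 (ratio_bound hK.convex hK.compact
    (zero_interior hK.convex hK.solid h1) hs (by omega))

end Vale.Agent.P248
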