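import Vale.Agent.P248.Signed
import Vale.Agent.P248.Ratio2

/-!
P248: for every convex body invariant under even sign changes
`|K| |K°| ≥ ((n-1)/n) 4^n / n!` (sharp for the tetrahedron in dimension three).
-/

namespace Vale.Agent.P248

open MeasureTheory

namespace Sharp

/-- reflection of an inequality for the positive orthant -/
theorem reflect {n : ℕ} {K : Set (Fin (n + 1) → ℝ)} (s : Fin (n + 1) → ℤˣ)
    {x : Fin (n + 1) → ℝ}
    (key : ∑ i, sgn s x i * volume.real (hsec i (sgn s ⁻¹' K) ∩ {z | ∀ j, 0 ≤ z j}) ≤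
      ((n : ℝ) + 1) * volume.real (sgn s ⁻¹' K ∩ {z | ∀ j, 0 ≤ z j})) :
    ∑ i, sgn s x i * volume.real (hsec i K ∩ orth (fun j => s (i.succAbove j))) ≤
      ((n : ℝ) + 1) * volume.real (K ∩ orth s) := by
  have h2 : volume (sgn s ⁻¹' K ∩ {z | ∀ j, 0 ≤ z j}) = volume (K ∩ orth s) := by
    rw [← Refl.vol_pre s (K ∩ orth s)]
    congr 1
    ext z
    simp only [Set.mem_inter_iff, Set.mem_preimage, Set.mem_ofPred_eq]
    rw [Refl.pos_iff s z]
  have h3 : ∀ i : Fin (n + 1), volume (hsec i (sgn s ⁻¹' K) ∩ {z | ∀ j, 0 ≤ z j}) =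
      volume (hsec i K ∩ orth (fun j => s (i.succAbove j))) := by
    intro i
    rw [← Refl.vol_pre (fun j => s (i.succAbove j))
      (hsec i K ∩ orth (fun j => s (i.succAbove j)))]
    congr 1
    ext z
    simp only [Set.mem_inter_iff, Set.mem_preimage, Set.mem_ofPred_eq, hsec]
    rw [Refl.pos_iff (fun j => s (i.succAbove j)) z, Refl.insertNth_sgn]
  have h4 : volume.real (sgn s ⁻¹' K ∩ {z | ∀ j, 0 ≤ z j}) = volume.real (K ∩ orth s) := by
    simp only [Measure.real, h2]
  have h5 : ∀ i : Fin (n + 1), volume.real (hsec i (sgn s ⁻¹' K) ∩ {z | ∀ j, 0 ≤ z j}) =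
      volume.real (hsec i K ∩ orth (fun j => s (i.succAbove j))) := by
    intro i
    simp only [Measure.real, h3]
  rw [h4] at key
  refine le_trans (le_of_eq ?_) key
  exact Finset.sum_congr rfl fun i _ => by rw [h5]

theorem cone_neg_orth {n : ℕ} {K : Set (Fin (n + 1) → ℝ)} (hK : Convex ℝ K) (hc : IsCompact K)
    (s : Fin (n + 1) → ℤˣ) (i0 : Fin (n + 1)) {x : Fin (n + 1) → ℝ} (hx : x ∈ K)
    (hxs : x ∈ orth s) :
    ∑ i, sgn (fun j => Ratio.flip i0 j * s j) x i * volume.real (hsec i K ∩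
        orth (fun j => Ratio.flip i0 (i.succAbove j) * s (i.succAbove j))) ≤
      ((n : ℝ) + 1) * volume.real (K ∩ orth (fun j => Ratio.flip i0 j * s j)) := by
  set s' : Fin (n + 1) → ℤˣ := fun j => Ratio.flip i0 j * s j with hs'
  refine reflect s' ?_
  have hK' : Convex ℝ (sgn s' ⁻¹' K) := by
    intro a ha b hb p q hp hq hpq
    have : sgn s' (p • a + q • b) = p • sgn s' a + q • sgn s' b := by
      funext i
      simp only [sgn, Pi.add_apply, Pi.smul_apply, smul_eq_mul]
      ring
    rw [Set.mem_preimage, this]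
    exact hK ha hb hp hq hpq
  have hc' : IsCompact (sgn s' ⁻¹' K) := (Refl.hom s').isCompact_preimage.2 hc
  have hxm : sgn s' x ∈ sgn s' ⁻¹' K := by
    rw [Set.mem_preimage, Refl.sgn_sgn]
    exact hx
  refine cone_neg hK' hc' hxm (i0 := i0) ?_ ?_
  · intro j hj
    have h := hxs j
    simp only [sgn, hs', Ratio.flip_ne hj, one_mul]
    exact h
  · have h := hxs i0
    simp only [sgn, hs', Ratio.flip_same]
    push_cast
    linarith

/-- two adjacent orthants carry the fraction `2^(-n)` of the volume -/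
theorem two_orth {n : ℕ} {K : Set (Fin (n + 1) → ℝ)} (hc : IsCompact K)
    (hs : ∀ s : Fin (n + 1) → ℤˣ, ∏ i, s i = 1 → ∀ x ∈ K, sgn s x ∈ K)
    (s : Fin (n + 1) → ℤˣ) (i0 : Fin (n + 1)) :
    volume.real K = 2 ^ n * (volume.real (K ∩ orth s) +
      volume.real (K ∩ orth (fun j => Ratio.flip i0 j * s j))) := by
  have hsum := orth_sum hc
  have h1 : ∀ t t' : Fin (n + 1) → ℤˣ, ∏ i, t i = ∏ i, t' i →
      volume.real (K ∩ orth t) = volume.real (K ∩ orth t') := by
    intro t t' ht
    have h2 : ∏ i, (t i * t' i) = 1 := by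
      rw [Finset.prod_mul_distrib, ht, Int.units_mul_self]
    have h3 := orth_sgn (K := K) (fun i => t i * t' i) t' (hs _ h2)
    have h4 : (fun i => t i * t' i * t' i) = t := by
      funext i
      rw [mul_assoc, Int.units_mul_self, mul_one]
    rw [h4] at h3
    rw [measureReal_def, measureReal_def, h3]
  have hu : ∏ i, Ratio.flip i0 i = -1 := Ratio.prod_flip i0
  have hsum2 : ∑ t : Fin (n + 1) → ℤˣ,
      volume.real (K ∩ orth (fun i => Ratio.flip i0 i * t i)) = volume.real K := by
    rw [← hsum]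
    exact Equiv.sum_comp (Equiv.mulLeft (Ratio.flip i0))
      (fun t => volume.real (K ∩ orth t))
  have hprod : ∀ t : Fin (n + 1) → ℤˣ, ∏ i, (Ratio.flip i0 i * t i) = - ∏ i, t i := by
    intro t
    rw [Finset.prod_mul_distrib, hu]
    simp
  have h5 : ∀ t : Fin (n + 1) → ℤˣ,
      volume.real (K ∩ orth t) + volume.real (K ∩ orth (fun i => Ratio.flip i0 i * t i)) =
      volume.real (K ∩ orth s) + volume.real (K ∩ orth (fun j => Ratio.flip i0 j * s j)) := by
    intro t
    by_cases ht : ∏ i, t i = ∏ i, s i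
    · rw [h1 t s ht, h1 (fun i => Ratio.flip i0 i * t i) (fun j => Ratio.flip i0 j * s j)
        (by rw [hprod, hprod, ht])]
    · have h6 : ∏ i, t i = - ∏ i, s i := by
        rcases Int.units_eq_one_or (∏ i, t i) with h7 | h7 <;>
        rcases Int.units_eq_one_or (∏ i, s i) with h8 | h8 <;>
        simp_all
      rw [h1 t (fun j => Ratio.flip i0 j * s j) (by rw [hprod, h6]),
        h1 (fun i => Ratio.flip i0 i * t i) s (by rw [hprod, h6, neg_neg]), add_comm]
  have h9 : ∑ t : Fin (n + 1) → ℤˣ, (volume.real (K ∩ orth t) +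
      volume.real (K ∩ orth (fun i => Ratio.flip i0 i * t i))) =
      ∑ _t : Fin (n + 1) → ℤˣ, (volume.real (K ∩ orth s) +
        volume.real (K ∩ orth (fun j => Ratio.flip i0 j * s j))) :=
    Finset.sum_congr rfl fun t _ => h5 t
  rw [Finset.sum_add_distrib, hsum, hsum2, Finset.sum_const, Finset.card_univ, Core.card_sign,
    nsmul_eq_mul] at h9
  push_cast at h9
  rw [pow_succ] at h9
  linarith

end Sharp

/-- the core inequality with a bound for `∑ |x_i| F_i` -/
theorem core_M {n : ℕ} {K : Set (Fin (n + 1) → ℝ)} (hK : Convex ℝ K)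
    (h0 : (0 : Fin (n + 1) → ℝ) ∈ interior K) {M : ℝ} (hM : 0 < M) {F : Fin (n + 1) → ℝ}
    (hF0 : ∀ i, 0 ≤ F i) (hMx : ∀ x ∈ K, ∑ i, |x i| * F i ≤ M) :
    2 * ∑ i, F i * volume.real (polar (hsec i K)) ≤
      ((n : ℝ) + 1) * M * volume.real (polar K) := by
  have hn : (0 : ℝ) < (n : ℝ) + 1 := by positivity
  set c : Fin (n + 1) → ℝ := fun i => F i / M with hcdef
  have hc0 : ∀ i, 0 ≤ c i := fun i => div_nonneg (hF0 i) hM.le
  have hb : ∀ y : Fin (n + 1) → ℝ, (∀ i, |y i| ≤ c i) → y ∈ polar K := by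
    intro y hy x hx
    have h2 := hMx x hx
    have h3 : ∑ i, x i * y i ≤ ∑ i, |x i| * c i := by
      refine Finset.sum_le_sum fun i _ => ?_
      calc x i * y i ≤ |x i * y i| := le_abs_self _
        _ = |x i| * |y i| := abs_mul _ _
        _ ≤ |x i| * c i := mul_le_mul_of_nonneg_left (hy i) (abs_nonneg _)
    have h4 : ∑ i, |x i| * c i = (∑ i, |x i| * F i) / M := by
      rw [Finset.sum_div]
      refine Finset.sum_congr rfl fun i _ => ?_
      rw [hcdef]
      ring
    have h5 : (∑ i, |x i| * F i) / M ≤ 1 := (div_le_one hM).2 h2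
    linarith
  have hpc := polar_compact h0
  have hbox := box_bound (polar_convex K) hpc hc0 hb
  have hle : ∀ i, volume.real (polar (hsec i K)) ≤ volume.real (proj i (polar K)) := fun i =>
    measureReal_mono (polar_hsec hK h0 i) (Core.proj_compact hpc i).measure_lt_top.ne
  have h6 : 2 * ∑ i, F i * volume.real (polar (hsec i K)) ≤
      M * ∑ i, 2 * c i * volume.real (proj i (polar K)) := by
    rw [Finset.mul_sum, Finset.mul_sum]
    refine Finset.sum_le_sum fun i _ => ?_
    have h7 : M * (2 * c i * volume.real (proj i (polar K))) =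
        2 * (F i * volume.real (proj i (polar K))) := by
      rw [hcdef]
      field_simp
    rw [h7]
    exact mul_le_mul_of_nonneg_left (mul_le_mul_of_nonneg_left (hle i) (hF0 i)) (by norm_num)
  calc 2 * ∑ i, F i * volume.real (polar (hsec i K))
      ≤ M * ∑ i, 2 * c i * volume.real (proj i (polar K)) := h6
    _ ≤ M * (((n : ℝ) + 1) * volume.real (polar K)) :=
        mul_le_mul_of_nonneg_left hbox hM.le
    _ = _ := by ring

/-- the sharp-type bound for bodies invariant under even sign changes -/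
theorem sharp_bound {n : ℕ} {K : Set (Fin (n + 1) → ℝ)} (hK : Convex ℝ K) (hc : IsCompact K)
    (h0 : (0 : Fin (n + 1) → ℝ) ∈ interior K)
    (hs : ∀ s : Fin (n + 1) → ℤˣ, ∏ i, s i = 1 → ∀ x ∈ K, sgn s x ∈ K) :
    (n : ℝ) / ((n : ℝ) + 1) * ((4 : ℝ) ^ (n + 1) / ((n + 1).factorial : ℝ)) ≤
      volume.real K * volume.real (polar K) := by
  have hn : (0 : ℝ) < (n : ℝ) + 1 := by positivity
  have hf := fun i => hsec_facts hK hc h0 i
  have he' : ∀ i, Equi (hsec i K) := fun i => Half.equi_of_uncond (Half.hsec_uncond hs i)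
  have hI : ∀ i, (4 : ℝ) ^ n / (n.factorial : ℝ) ≤
      volume.real (hsec i K) * volume.real (polar (hsec i K)) := fun i =>
    equi_bound (hf i).1 (hf i).2.1 (hf i).2.2 (he' i)
  set F : Fin (n + 1) → ℝ := fun i => volume.real (hsec i K) / 2 ^ n with hF
  have hFpos : ∀ i, 0 < F i := fun i =>
    div_pos (Core.vol_pos (hf i).2.1 (hf i).2.2) (by positivity)
  have hFo : ∀ i (s : Fin n → ℤˣ), volume.real (hsec i K ∩ orth s) = F i := fun i s =>
    Core.equi_orth (hf i).2.1 (he' i) s
  -- the maximum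
  have hcont : ContinuousOn (fun x : Fin (n + 1) → ℝ => ∑ i, |x i| * F i) K := by
    refine Continuous.continuousOn ?_
    fun_prop
  obtain ⟨x, hx, hmax⟩ := hc.exists_isMaxOn ⟨0, interior_subset h0⟩ hcont
  set M : ℝ := ∑ i, |x i| * F i with hMdef
  have hMx : ∀ y ∈ K, ∑ i, |y i| * F i ≤ M := fun y hy => hmax hy
  have hM : 0 < M := by
    by_contra hcon
    have hsub : K ⊆ {0} := by
      intro y hy
      have h1 := (hMx y hy).trans (not_lt.1 hcon)
      have h2 : ∀ i ∈ Finset.univ, 0 ≤ |y i| * F i := fun i _ =>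
        mul_nonneg (abs_nonneg _) (hFpos i).le
      have h3 := (Finset.sum_eq_zero_iff_of_nonneg h2).1 (le_antisymm h1 (Finset.sum_nonneg h2))
      have : y = 0 := by
        funext i
        have h4 := h3 i (Finset.mem_univ i)
        rcases mul_eq_zero.1 h4 with h5 | h5
        · exact abs_eq_zero.1 h5
        · exact absurd h5 (hFpos i).ne'
      exact this
    have h1 := Core.vol_pos hc h0
    have h2 : volume K = 0 := by
      refine measure_mono_null hsub ?_
      exact measure_singleton 0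
    rw [measureReal_def, h2] at h1
    simp at h1
  obtain ⟨s, hxs⟩ := Core.exists_orth x
  -- (b)
  have hb : M ≤ ((n : ℝ) + 1) * volume.real (K ∩ orth s) := by
    have h1 := Core.cone_orth' hK hc s hx hxs
    simp only [hFo] at h1
    exact h1
  -- (c)
  obtain ⟨i0, -, hi0⟩ := Finset.exists_min_image Finset.univ (fun i => |x i| * F i)
    ⟨0, Finset.mem_univ _⟩
  have hmin : ((n : ℝ) + 1) * (|x i0| * F i0) ≤ M := by
    have h1 : ∑ _i : Fin (n + 1), |x i0| * F i0 ≤ M :=
      Finset.sum_le_sum fun i hi => hi0 i hi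
    rw [Finset.sum_const, Finset.card_univ, Fintype.card_fin, nsmul_eq_mul] at h1
    push_cast at h1
    exact h1
  have hcc : M - 2 * (|x i0| * F i0) ≤
      ((n : ℝ) + 1) * volume.real (K ∩ orth (fun j => Ratio.flip i0 j * s j)) := by
    have h1 := Sharp.cone_neg_orth hK hc s i0 hx hxs
    simp only [hFo] at h1
    refine le_trans (le_of_eq ?_) h1
    have habs : ∀ i, |x i| = ((s i : ℤ) : ℝ) * x i := by
      intro i
      have h2 := hxs i
      rw [← abs_of_nonneg h2, abs_mul, Refl.abs_unit, one_mul]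
    have h3 : ∀ i, i ≠ i0 → sgn (fun j => Ratio.flip i0 j * s j) x i * F i = |x i| * F i := by
      intro i hi
      rw [habs]
      simp only [sgn, Ratio.flip_ne hi, one_mul]
    have h4 : sgn (fun j => Ratio.flip i0 j * s j) x i0 * F i0 = -(|x i0| * F i0) := by
      rw [habs]
      simp only [sgn, Ratio.flip_same]
      push_cast
      ring
    rw [hMdef, ← Finset.add_sum_erase _ _ (Finset.mem_univ i0),
      ← Finset.add_sum_erase Finset.univ
        (fun i => sgn (fun j => Ratio.flip i0 j * s j) x i * F i) (Finset.mem_univ i0), h4,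
      Finset.sum_congr rfl fun i hi => h3 i (Finset.ne_of_mem_erase hi)]
    ring
  -- (d)
  have hd := Sharp.two_orth hc hs s i0
  have hvol : 2 ^ (n + 1) * (n : ℝ) * M / ((n : ℝ) + 1) ^ 2 ≤ volume.real K := by
    rw [hd, div_le_iff₀ (by positivity)]
    have h1 : (2 * (n : ℝ)) * M ≤ ((n : ℝ) + 1) * (((n : ℝ) + 1) * (volume.real (K ∩ orth s) +
        volume.real (K ∩ orth (fun j => Ratio.flip i0 j * s j)))) := by
      have h2 : ((n : ℝ) + 1) * (M + (M - 2 * (|x i0| * F i0))) ≤ ((n : ℝ) + 1) *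
          (((n : ℝ) + 1) * (volume.real (K ∩ orth s) +
          volume.real (K ∩ orth (fun j => Ratio.flip i0 j * s j)))) := by
        refine mul_le_mul_of_nonneg_left ?_ hn.le
        rw [mul_add]
        exact add_le_add hb hcc
      refine le_trans ?_ h2
      linarith
    have h3 : (0 : ℝ) < 2 ^ n := by positivity
    calc 2 ^ (n + 1) * (n : ℝ) * M = 2 ^ n * ((2 * (n : ℝ)) * M) := by ring
      _ ≤ 2 ^ n * (((n : ℝ) + 1) * (((n : ℝ) + 1) * (volume.real (K ∩ orth s) +
        volume.real (K ∩ orth (fun j => Ratio.flip i0 j * s j))))) :=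
          mul_le_mul_of_nonneg_left h1 h3.le
      _ = _ := by ring
  -- (a)
  have ha := core_M hK h0 hM (fun i => (hFpos i).le) hMx
  have hfac : (0 : ℝ) < (n.factorial : ℝ) := by exact_mod_cast n.factorial_pos
  have hpol : 2 ^ (n + 1) / ((n.factorial : ℝ) * M) ≤ volume.real (polar K) := by
    have h1 : 2 * ∑ _i : Fin (n + 1), (4 : ℝ) ^ n / (n.factorial : ℝ) / 2 ^ n ≤
        2 * ∑ i : Fin (n + 1), F i * volume.real (polar (hsec i K)) := by
      refine mul_le_mul_of_nonneg_left (Finset.sum_le_sum fun i _ => ?_) (by norm_num)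
      have h3 : F i * volume.real (polar (hsec i K)) =
          volume.real (hsec i K) * volume.real (polar (hsec i K)) / 2 ^ n := by
        rw [hF]
        ring
      rw [h3]
      exact div_le_div_of_nonneg_right (hI i) (by positivity)
    have h4 := h1.trans ha
    rw [Finset.sum_const, Finset.card_univ, Fintype.card_fin, nsmul_eq_mul] at h4
    push_cast at h4
    rw [div_le_iff₀ (by positivity)]
    have h5 : (4 : ℝ) ^ n = 2 ^ n * 2 ^ n := by
      rw [← mul_pow]
      norm_num
    have h6 : 2 * (((n : ℝ) + 1) * ((4 : ℝ) ^ n / (n.factorial : ℝ) / 2 ^ n)) *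
        ((n.factorial : ℝ) / ((n : ℝ) + 1)) = 2 ^ (n + 1) := by
      rw [h5]
      field_simp
      ring
    have h7 : ((n : ℝ) + 1) * M * volume.real (polar K) * ((n.factorial : ℝ) / ((n : ℝ) + 1)) =
        volume.real (polar K) * ((n.factorial : ℝ) * M) := by
      field_simp
    rw [← h6, ← h7]
    exact mul_le_mul_of_nonneg_right h4 (by positivity)
  have hfin := mul_le_mul hvol hpol (by positivity) (by positivity)
  refine le_trans (le_of_eq ?_) hfin
  have h5 : (((n + 1).factorial : ℕ) : ℝ) = ((n : ℝ) + 1) * (n.factorial : ℝ) := by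
    rw [Nat.factorial_succ]
    push_cast
    ring
  have h6 : (4 : ℝ) ^ (n + 1) = 2 ^ (n + 1) * 2 ^ (n + 1) := by
    rw [← mul_pow]
    norm_num
  rw [h5, h6]
  field_simp

end Vale.Agent.P248
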