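import Vale.Agent.P248.Final
import Vale.Agent.P248.Sharp

/-! P248: the bound for all bodies invariant under even sign changes, for the volume product. -/

namespace Vale.Agent.P248

open MeasureTheory

theorem final_sharp {n : ℕ} (hn : 2 ≤ n) {K : Set (Fin n → ℝ)} (hK : Body K) (hs : EvenInv K) :
    ((n : ℝ) - 1) / n * ((4 : ℝ) ^ n / (n.factorial : ℝ)) ≤ volProd K := by
  have h1 := Final.even_flip hn hs
  obtain ⟨m, rfl⟩ : ∃ m, n = m + 1 := ⟨n - 1, by omega⟩
  refine Final.le_volProd hK h1 ?_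
  have h2 := sharp_bound hK.convex hK.compact (zero_interior hK.convex hK.solid h1) hs
  refine le_trans (le_of_eq ?_) h2
  push_cast
  ring

theorem num2 {n : ℕ} (hn : 4 ≤ n) : ((n : ℝ) + 1) ^ (n + 1) / ((n.factorial : ℝ)) ^ 2 <
    ((n : ℝ) - 1) / n * ((4 : ℝ) ^ n / (n.factorial : ℝ)) := by
  have hfac : (0 : ℝ) < (n.factorial : ℝ) := by exact_mod_cast n.factorial_pos
  rcases Nat.eq_or_lt_of_le hn with h | h
  · subst h
    norm_num [Nat.factorial]
  · have h1 := Num.main n h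
    have hn' : (4 : ℝ) ≤ n := by exact_mod_cast hn
    have h3 : ((n : ℝ) + 1) ^ (n + 1) / ((n.factorial : ℝ)) ^ 2 <
        1 / 2 * (4 ^ n / (n.factorial : ℝ)) := by
      rw [div_lt_iff₀ (by positivity)]
      have h4 : 1 / 2 * (4 ^ n / (n.factorial : ℝ)) * (n.factorial : ℝ) ^ 2 =
          1 / 2 * (4 ^ n * (n.factorial : ℝ)) := by
        field_simp
      rw [h4]
      linarith
    have h5 : (0 : ℝ) < 4 ^ n / (n.factorial : ℝ) := by positivity
    have h6 : (1 : ℝ) / 2 ≤ ((n : ℝ) - 1) / n := by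
      rw [div_le_div_iff₀ (by norm_num) (by linarith)]
      linarith
    exact lt_of_lt_of_le h3 (mul_le_mul_of_nonneg_right h6 h5.le)

theorem final_Q2 {n : ℕ} (hn : 3 ≤ n) {K : Set (Fin n → ℝ)} (hK : Body K) (hs : EvenInv K) :
    ((n : ℝ) + 1) ^ (n + 1) / ((n.factorial : ℝ)) ^ 2 ≤ volProd K := by
  have h1 := final_sharp (by omega) hK hs
  rcases Nat.eq_or_lt_of_le hn with h | h
  · subst h
    refine le_trans (le_of_eq ?_) h1
    norm_num [Nat.factorial]
  · exact (num2 h).le.trans h1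

end Vale.Agent.P248
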