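import Vale.Agent.P248.Core

/-! P248: bodies invariant under even sign changes: comparison of the two kinds of orthants, the
origin is interior, the centroid of the polar is the origin. -/

namespace Vale.Agent.P248

open MeasureTheory Pointwise

namespace Ratio

/-- flip the sign of the coordinate `i` -/
def flip {n : ℕ} (i : Fin n) : Fin n → ℤˣ := Function.update 1 i (-1)

theorem prod_flip {n : ℕ} (i : Fin n) : ∏ j, flip i j = -1 := by
  unfold flip
  rw [Finset.prod_update_of_mem (Finset.mem_univ _)]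
  simp

theorem flip_same {n : ℕ} (i : Fin n) : flip i i = -1 := by
  simp [flip]

theorem flip_ne {n : ℕ} {i j : Fin n} (h : j ≠ i) : flip i j = 1 := by
  simp [flip, h]

/-- `(1/n) ∑_j flip_i flip_j x = ((n-2)/n) flip_i x` -/
theorem shrink {n : ℕ} {K : Set (Fin n → ℝ)} (hK : Convex ℝ K)
    (hs : ∀ s : Fin n → ℤˣ, ∏ i, s i = 1 → ∀ x ∈ K, sgn s x ∈ K) (i : Fin n)
    {x : Fin n → ℝ} (hx : x ∈ K) : (((n : ℝ) - 2) / n) • sgn (flip i) x ∈ K := by
  have hn : (0 : ℝ) < n := by
    have : 0 < n := lt_of_le_of_lt (Nat.zero_le _) i.2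
    exact_mod_cast this
  have h1 : ∀ j : Fin n, sgn (fun k => flip i k * flip j k) x ∈ K := by
    intro j
    refine hs _ ?_ x hx
    rw [Finset.prod_mul_distrib, prod_flip, prod_flip]
    norm_num
  have h2 : ∑ j : Fin n, ((1 : ℝ) / n) • sgn (fun k => flip i k * flip j k) x ∈ K := by
    refine hK.sum_mem (fun j _ => by positivity) ?_ (fun j _ => h1 j)
    rw [Finset.sum_const, Finset.card_univ, Fintype.card_fin, nsmul_eq_mul]
    field_simp
  have h3 : ∑ j : Fin n, ((1 : ℝ) / n) • sgn (fun k => flip i k * flip j k) x =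
      (((n : ℝ) - 2) / n) • sgn (flip i) x := by
    funext k
    rw [Finset.sum_apply]
    simp only [Pi.smul_apply, smul_eq_mul, sgn]
    have h4 : ∀ j : Fin n, (1 : ℝ) / n * ((((flip i k * flip j k : ℤˣ) : ℤ) : ℝ) * x k) =
        (1 : ℝ) / n * ((((flip i k : ℤˣ) : ℤ) : ℝ) * x k) * (((flip j k : ℤˣ) : ℤ) : ℝ) := by
      intro j
      push_cast
      ring
    rw [Finset.sum_congr rfl fun j _ => h4 j, ← Finset.mul_sum]
    have h5 : ∑ j : Fin n, (((flip j k : ℤˣ) : ℤ) : ℝ) = (n : ℝ) - 2 := by
      have h6 : ∀ j : Fin n, (((flip j k : ℤˣ) : ℤ) : ℝ) = 1 - (if j = k then 2 else 0) := by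
        intro j
        by_cases h : j = k
        · subst h
          rw [flip_same]
          norm_num
        · rw [flip_ne (Ne.symm h)]
          simp [h]
      rw [Finset.sum_congr rfl fun j _ => h6 j, Finset.sum_sub_distrib]
      simp
    rw [h5]
    field_simp
  rw [h3] at h2
  exact h2

/-- the volumes of the two kinds of orthants are comparable -/
theorem orth_ratio {n : ℕ} {K : Set (Fin n → ℝ)} (hK : Convex ℝ K) (hc : IsCompact K)
    (hs : ∀ s : Fin n → ℤˣ, ∏ i, s i = 1 → ∀ x ∈ K, sgn s x ∈ K) (hn : 2 ≤ n) (i : Fin n)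
    (s : Fin n → ℤˣ) :
    (((n : ℝ) - 2) / n) ^ n * volume.real (K ∩ orth s) ≤
      volume.real (K ∩ orth (fun j => flip i j * s j)) := by
  have hn' : (0 : ℝ) < n := by
    have : 0 < n := by omega
    exact_mod_cast this
  have hl : (0 : ℝ) ≤ ((n : ℝ) - 2) / n := by
    have : (2 : ℝ) ≤ n := by exact_mod_cast hn
    apply div_nonneg <;> linarith
  have hsub : (((n : ℝ) - 2) / n) • (sgn (flip i) ⁻¹' (K ∩ orth s)) ⊆
      K ∩ orth (fun j => flip i j * s j) := by
    rintro _ ⟨y, hy, rfl⟩
    have hy' : sgn (flip i) (sgn (flip i) y) = y := Orth.sgn_invol _ y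
    constructor
    · have := shrink hK hs i hy.1
      rw [hy'] at this
      exact this
    · intro j
      have h1 := hy.2 j
      simp only [sgn] at h1
      simp only [Pi.smul_apply, smul_eq_mul]
      push_cast
      have h2 : ((flip i j : ℤ) : ℝ) * ((s j : ℤ) : ℝ) * (((n : ℝ) - 2) / n * y j) =
          ((n : ℝ) - 2) / n * (((s j : ℤ) : ℝ) * (((flip i j : ℤ) : ℝ) * y j)) := by ring
      rw [h2]
      exact mul_nonneg hl h1
  have hmeas : MeasurableSet (K ∩ orth s) :=
    hc.measurableSet.inter (Orth.isClosed_orth s).measurableSet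
  have h1 : volume.real ((((n : ℝ) - 2) / n) • (sgn (flip i) ⁻¹' (K ∩ orth s))) =
      (((n : ℝ) - 2) / n) ^ n * volume.real (K ∩ orth s) := by
    rw [measureReal_def, Measure.addHaar_smul, Module.finrank_fin_fun,
      (Orth.preserving_sgn (flip i)).measure_preimage hmeas.nullMeasurableSet,
      ENNReal.toReal_mul, ENNReal.toReal_ofReal (abs_nonneg _), abs_of_nonneg (by positivity),
      measureReal_def]
  rw [← h1]
  exact measureReal_mono hsub
    ((measure_mono Set.inter_subset_left).trans_lt hc.measure_lt_top).ne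

end Ratio

end Vale.Agent.P248
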