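import Vale.Agent.P248.Cone

/-!
P248: the cone inequality with the apex outside the orthant (one negative coordinate).
-/

namespace Vale.Agent.P248

open MeasureTheory

namespace Signed

/-- cone with apex `(a, v)` over `{0} × T` -/
def cn {n : ℕ} (a : ℝ) (v : Fin n → ℝ) (T : Set (Fin n → ℝ)) : Set (ℝ × (Fin n → ℝ)) :=
  {p | (0 < p.1 ∧ p.1 < a) ∧ (1 - p.1 / a)⁻¹ • (p.2 - (p.1 / a) • v) ∈ T}

theorem meas_cn {n : ℕ} (a : ℝ) (v : Fin n → ℝ) {T : Set (Fin n → ℝ)} (hT : MeasurableSet T) :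
    MeasurableSet (cn a v T) := by
  refine MeasurableSet.inter ?_ ?_
  · exact (measurableSet_lt measurable_const measurable_fst).inter
      (measurableSet_lt measurable_fst measurable_const)
  · have hm : Measurable (fun p : ℝ × (Fin n → ℝ) =>
        (1 - p.1 / a)⁻¹ • (p.2 - (p.1 / a) • v)) := by
      fun_prop
    exact hm hT

theorem vol_cn {n : ℕ} {a : ℝ} (ha : 0 < a) (v : Fin n → ℝ) {T : Set (Fin n → ℝ)}
    (hT : MeasurableSet T) :
    volume (cn a v T) = ENNReal.ofReal (a / (n + 1)) * volume T := by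
  rw [Measure.volume_eq_prod, Measure.prod_apply (meas_cn a v hT)]
  have h1 : ∀ t : ℝ, volume (Prod.mk t ⁻¹' cn a v T) =
      (Set.Ioo 0 a).indicator
        (fun t => ENNReal.ofReal ((1 - t / a) ^ n) * volume T) t := by
    intro t
    by_cases ht : t ∈ Set.Ioo 0 a
    · rw [Set.indicator_of_mem ht]
      have hr : 0 < 1 - t / a := by
        have : t / a < 1 := (div_lt_one ha).2 ht.2
        linarith
      have hpre : Prod.mk t ⁻¹' cn a v T =
          (fun z : Fin n → ℝ => z + -((t / a) • v)) ⁻¹'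
            ((fun z : Fin n → ℝ => (1 - t / a)⁻¹ • z) ⁻¹' T) := by
        ext z
        simp only [cn, Set.mem_preimage, Set.mem_ofPred_eq, ← sub_eq_add_neg]
        exact ⟨fun h => h.2, fun h => ⟨⟨ht.1, ht.2⟩, h⟩⟩
      rw [hpre, measure_preimage_add_right, Measure.addHaar_preimage_smul volume (inv_ne_zero hr.ne')]
      congr 2
      rw [Module.finrank_fin_fun, inv_pow, inv_inv, abs_of_pos (pow_pos hr n)]
    · rw [Set.indicator_of_notMem ht]
      have : Prod.mk t ⁻¹' cn a v T = ∅ := by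
        ext z
        simp only [cn, Set.mem_preimage, Set.mem_ofPred_eq, Set.mem_empty_iff_false, iff_false]
        intro h
        exact ht ⟨h.1.1, h.1.2⟩
      rw [this, measure_empty]
  rw [lintegral_congr h1, lintegral_indicator measurableSet_Ioo,
    lintegral_mul_const _ (by fun_prop), Cone.integral_cone ha]

/-- points of the cone over the face `i` -/
theorem rep {n : ℕ} {K : Set (Fin (n + 1) → ℝ)} {x : Fin (n + 1) → ℝ} {i : Fin (n + 1)}
    {w : Fin (n + 1) → ℝ} (hw : (w i, i.removeNth w) ∈ Cone.C K x i) :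
    ∃ (s : ℝ) (z : Fin n → ℝ), 0 < s ∧ s < 1 ∧ 0 < x i ∧ z ∈ hsec i K ∧ (∀ k, 0 < z k) ∧
      w = s • x + (1 - s) • (i.insertNth (0 : ℝ) z : Fin (n + 1) → ℝ) := by
  obtain ⟨⟨h1, h2⟩, h3, h4⟩ := hw
  simp only at h1 h2 h3 h4
  have hxi : 0 < x i := h1.trans h2
  have hs0 : 0 < w i / x i := div_pos h1 hxi
  have hs1 : w i / x i < 1 := (div_lt_one hxi).2 h2
  refine ⟨w i / x i, _, hs0, hs1, hxi, h3, h4, ?_⟩
  have hr : 1 - w i / x i ≠ 0 := by linarith
  funext j
  refine Fin.succAboveCases i ?_ (fun k => ?_) j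
  · simp only [Pi.add_apply, Pi.smul_apply, smul_eq_mul, Fin.insertNth_apply_same, mul_zero,
      add_zero]
    field_simp
  · simp only [Pi.add_apply, Pi.smul_apply, smul_eq_mul, Fin.insertNth_apply_succAbove,
      Pi.sub_apply, Fin.removeNth]
    rw [mul_inv_cancel_left₀ hr]
    ring

theorem lt_of_rep {n : ℕ} {K : Set (Fin (n + 1) → ℝ)} {x : Fin (n + 1) → ℝ} {i : Fin (n + 1)}
    {w : Fin (n + 1) → ℝ} (hw : (w i, i.removeNth w) ∈ Cone.C K x i) :
    ∀ j, j ≠ i → w i * x j < w j * x i := by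
  obtain ⟨s, z, hs0, hs1, hxi, hz, hz0, hwe⟩ := rep hw
  intro j hj
  obtain ⟨k, rfl⟩ := Fin.exists_succAbove_eq hj
  have h1 : w i = s * x i := by
    rw [hwe]
    simp only [Pi.add_apply, Pi.smul_apply, smul_eq_mul, Fin.insertNth_apply_same]
    ring
  have h2 : w (i.succAbove k) = s * x (i.succAbove k) + (1 - s) * z k := by
    rw [hwe]
    simp only [Pi.add_apply, Pi.smul_apply, smul_eq_mul, Fin.insertNth_apply_succAbove]
  rw [h1, h2]
  have h3 : 0 < (1 - s) * z k * x i := mul_pos (mul_pos (by linarith) (hz0 k)) hxi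
  nlinarith

/-- the cone over the face `i0`, on the negative side -/
def E {n : ℕ} (K : Set (Fin (n + 1) → ℝ)) (x : Fin (n + 1) → ℝ) (i : Fin (n + 1)) :
    Set (Fin (n + 1) → ℝ) :=
  {w | (-w i, i.removeNth w) ∈ cn (-x i) (i.removeNth x) (hsec i K ∩ {z | ∀ j, 0 ≤ z j})}

theorem vol_E {n : ℕ} {K : Set (Fin (n + 1) → ℝ)} (hc : IsCompact K) {x : Fin (n + 1) → ℝ}
    {i : Fin (n + 1)} (hxi : x i < 0) :
    volume (E K x i) = ENNReal.ofReal (-x i / (n + 1)) *
      volume (hsec i K ∩ {z | ∀ j, 0 ≤ z j}) := by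
  have hT : MeasurableSet (hsec i K ∩ {z : Fin n → ℝ | ∀ j, 0 ≤ z j}) :=
    (Cone.isClosed_hsec hc i).measurableSet.inter Cone.isClosed_nn.measurableSet
  have h1 := volume_preserving_piFinSuccAbove (fun _ => ℝ) i
  have h2 : MeasurePreserving (Prod.map (fun t : ℝ => -t) (id : (Fin n → ℝ) → (Fin n → ℝ)))
      (volume : Measure (ℝ × (Fin n → ℝ))) volume :=
    (Measure.measurePreserving_neg (volume : Measure ℝ)).prod (MeasurePreserving.id volume)
  have h3 := h2.comp h1
  have h4 : E K x i = (Prod.map (fun t : ℝ => -t) (id : (Fin n → ℝ) → (Fin n → ℝ)) ∘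
      (MeasurableEquiv.piFinSuccAbove (fun _ => ℝ) i)) ⁻¹'
        (cn (-x i) (i.removeNth x) (hsec i K ∩ {z | ∀ j, 0 ≤ z j})) := rfl
  rw [h4, h3.measure_preimage (meas_cn _ _ hT).nullMeasurableSet, vol_cn (by linarith) _ hT]

/-- covering -/
theorem cover {n : ℕ} {K : Set (Fin (n + 1) → ℝ)} (hK : Convex ℝ K) {x : Fin (n + 1) → ℝ}
    (hx : x ∈ K) {i0 : Fin (n + 1)} (hx0 : ∀ j, j ≠ i0 → 0 ≤ x j) (hxi : x i0 < 0)
    {i : Fin (n + 1)} {w : Fin (n + 1) → ℝ} (hw : (w i, i.removeNth w) ∈ Cone.C K x i) :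
    w ∈ (K ∩ {z | ∀ j, 0 ≤ z j}) ∪ E K x i0 := by
  obtain ⟨s, z, hs0, hs1, hxip, hz, hz0, hwe⟩ := rep hw
  have hne : i ≠ i0 := by
    rintro rfl
    linarith
  set Z : Fin (n + 1) → ℝ := (i.insertNth (0 : ℝ) z : Fin (n + 1) → ℝ) with hZ
  have hZK : Z ∈ K := hz
  have hZ0 : ∀ j, 0 ≤ Z j := by
    intro j
    refine Fin.succAboveCases i ?_ (fun k => ?_) j
    · rw [hZ, Fin.insertNth_apply_same]
    · rw [hZ, Fin.insertNth_apply_succAbove]
      exact (hz0 k).le
  have hZi : 0 < Z i0 := by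
    obtain ⟨k, hk⟩ := Fin.exists_succAbove_eq hne.symm
    rw [← hk, hZ, Fin.insertNth_apply_succAbove]
    exact hz0 k
  have hwj : ∀ j, w j = s * x j + (1 - s) * Z j := by
    intro j
    rw [hwe]
    simp only [Pi.add_apply, Pi.smul_apply, smul_eq_mul]
  have hwK : w ∈ K := by
    rw [hwe]
    exact hK hx hZK hs0.le (by linarith) (by ring)
  by_cases hwi : 0 ≤ w i0
  · refine Or.inl ⟨hwK, fun j => ?_⟩
    by_cases hj : j = i0
    · rw [hj]; exact hwi
    · rw [hwj]
      have h1 := hx0 j hj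
      have h2 := hZ0 j
      have : 0 ≤ 1 - s := by linarith
      positivity
  · right
    push Not at hwi
    -- the point where the segment enters the orthant
    set s' : ℝ := Z i0 / (Z i0 - x i0) with hs'
    have hd : 0 < Z i0 - x i0 := by linarith
    have hs'0 : 0 < s' := div_pos hZi hd
    have hs's : s' < s := by
      rw [hs', div_lt_iff₀ hd]
      have := hwj i0
      nlinarith
    have hs'1 : s' < 1 := hs's.trans hs1
    have hroot : s' * x i0 + (1 - s') * Z i0 = 0 := by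
      rw [hs']
      field_simp
      ring
    set y : Fin (n + 1) → ℝ := s' • x + (1 - s') • Z with hy
    have hyK : y ∈ K := hK hx hZK hs'0.le (by linarith) (by ring)
    have hyj : ∀ j, y j = s' * x j + (1 - s') * Z j := by
      intro j
      rw [hy]
      simp only [Pi.add_apply, Pi.smul_apply, smul_eq_mul]
    have hy0 : ∀ j, 0 ≤ y j := by
      intro j
      rw [hyj]
      by_cases hj : j = i0
      · rw [hj, hroot]
      · have h1 := hx0 j hj
        have h2 := hZ0 j
        have : 0 ≤ 1 - s' := by linarith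
        positivity
    have hyi : y i0 = 0 := by rw [hyj, hroot]
    -- `w = σ x + (1 - σ) y`
    set σ : ℝ := (s - s') / (1 - s') with hσ
    have h1s' : 0 < 1 - s' := by linarith
    have hσ0 : 0 < σ := div_pos (by linarith) h1s'
    have hσ1 : σ < 1 := by
      rw [hσ, div_lt_one h1s']
      linarith
    have hwσ : ∀ j, w j = σ * x j + (1 - σ) * y j := by
      intro j
      have h1 : s = σ + (1 - σ) * s' := by
        rw [hσ]
        field_simp
        ring
      rw [hwj, hyj]
      have h2 : 1 - s = (1 - σ) * (1 - s') := by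
        rw [h1]
        ring
      rw [h2]
      nth_rewrite 1 [h1]
      ring
    have hwi0 : w i0 = σ * x i0 := by
      rw [hwσ, hyi]
      ring
    change (-w i0, i0.removeNth w) ∈
      cn (-x i0) (i0.removeNth x) (hsec i0 K ∩ {z | ∀ j, 0 ≤ z j})
    have hq : -w i0 / -x i0 = σ := by
      rw [hwi0]
      have : x i0 ≠ 0 := hxi.ne
      field_simp
    refine ⟨⟨?_, ?_⟩, ?_⟩
    · simp only
      linarith
    · simp only
      rw [hwi0]
      nlinarith
    · simp only
      rw [hq]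
      have h3 : (1 - σ)⁻¹ • (i0.removeNth w - σ • i0.removeNth x) = i0.removeNth y := by
        funext k
        simp only [Pi.smul_apply, Pi.sub_apply, smul_eq_mul, Fin.removeNth]
        rw [hwσ]
        have : 1 - σ ≠ 0 := by linarith
        field_simp
        ring
      rw [h3]
      have h4 : (i0.insertNth (0 : ℝ) (i0.removeNth y) : Fin (n + 1) → ℝ) = y := by
        funext j
        refine Fin.succAboveCases i0 ?_ (fun k => ?_) j
        · rw [Fin.insertNth_apply_same, hyi]
        · rw [Fin.insertNth_apply_succAbove]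
          rfl
      refine ⟨?_, fun k => hy0 _⟩
      change (i0.insertNth (0 : ℝ) (i0.removeNth y) : Fin (n + 1) → ℝ) ∈ K
      rw [h4]
      exact hyK

end Signed

open Signed in
/-- the cone inequality for an apex with one negative coordinate -/
theorem cone_neg {n : ℕ} {K : Set (Fin (n + 1) → ℝ)} (hK : Convex ℝ K) (hc : IsCompact K)
    {x : Fin (n + 1) → ℝ} (hx : x ∈ K) {i0 : Fin (n + 1)} (hx0 : ∀ j, j ≠ i0 → 0 ≤ x j)
    (hxi : x i0 ≤ 0) :
    ∑ i, x i * volume.real (hsec i K ∩ {z | ∀ j, 0 ≤ z j}) ≤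
      ((n : ℝ) + 1) * volume.real (K ∩ {z | ∀ j, 0 ≤ z j}) := by
  classical
  rcases hxi.eq_or_lt with hxi | hxi
  · refine cone_pos hK hc hx fun i => ?_
    by_cases hi : i = i0
    · rw [hi, hxi]
    · exact hx0 i hi
  have hmp := fun i : Fin (n + 1) => volume_preserving_piFinSuccAbove (fun _ => ℝ) i
  set D : Fin (n + 1) → Set (Fin (n + 1) → ℝ) := fun i =>
    (MeasurableEquiv.piFinSuccAbove (fun _ => ℝ) i) ⁻¹' (Cone.C K x i) with hD
  have hmem : ∀ i w, w ∈ D i → (w i, i.removeNth w) ∈ Cone.C K x i := fun i w h => h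
  have hDm : ∀ i, MeasurableSet (D i) := fun i =>
    (MeasurableEquiv.piFinSuccAbove (fun _ => ℝ) i).measurable (Cone.meas_C hc x i)
  have hvol : ∀ i, i ≠ i0 → volume (D i) =
      ENNReal.ofReal (x i / (n + 1)) * volume (hsec i K ∩ {z | ∀ j, 0 ≤ z j}) := by
    intro i hi
    rw [hD, ← Cone.vol_Fp (K := K) i]
    show volume ((MeasurableEquiv.piFinSuccAbove (fun _ => ℝ) i) ⁻¹' (Cone.C K x i)) = _
    rw [(hmp i).measure_preimage (Cone.meas_C hc x i).nullMeasurableSet]
    rcases (hx0 i hi).eq_or_lt with h | h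
    · have : Cone.C K x i = ∅ := by
        ext p
        simp only [Cone.C, Set.mem_ofPred_eq, Set.mem_empty_iff_false, iff_false]
        intro hp
        have := hp.1.1.trans hp.1.2
        rw [← h] at this
        exact lt_irrefl _ this
      rw [this, ← h]
      simp
    · exact Cone.vol_C hc i h
  have hdisj : Pairwise (Function.onFun Disjoint D) := by
    intro i j hij
    refine Set.disjoint_left.2 fun w hi hj => ?_
    have h1 := lt_of_rep (hmem i w hi) j hij.symm
    have h2 := lt_of_rep (hmem j w hj) i hij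
    linarith
  have hsub : (⋃ i, D i) ⊆ (K ∩ {z | ∀ j, 0 ≤ z j}) ∪ E K x i0 := by
    intro w hw
    obtain ⟨i, hi⟩ := Set.mem_iUnion.1 hw
    exact cover hK hx hx0 hxi (hmem i w hi)
  have hfin : volume (K ∩ {z : Fin (n + 1) → ℝ | ∀ j, 0 ≤ z j}) ≠ ⊤ :=
    ((measure_mono Set.inter_subset_left).trans_lt hc.measure_lt_top).ne
  have hEv := vol_E hc hxi
  have hfinh : volume (hsec i0 K ∩ {z : Fin n → ℝ | ∀ j, 0 ≤ z j}) ≠ ⊤ := by
    have hcl : IsClosed (hsec i0 K) := Cone.isClosed_hsec hc i0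
    have hb : IsCompact (hsec i0 K) := by
      have hsubb : hsec i0 K ⊆ (fun w : Fin (n + 1) → ℝ => i0.removeNth w) '' K := by
        intro z hz
        refine ⟨_, hz, ?_⟩
        simp
      refine (hc.image ?_).of_isClosed_subset hcl hsubb
      exact continuous_pi fun k => continuous_apply _
    exact ((measure_mono Set.inter_subset_left).trans_lt hb.measure_lt_top).ne
  have hfinE : volume (E K x i0) ≠ ⊤ := by
    rw [hEv]
    exact ENNReal.mul_ne_top ENNReal.ofReal_ne_top hfinh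
  have h1 : ∑ i, volume (D i) ≤ volume (K ∩ {z | ∀ j, 0 ≤ z j}) + volume (E K x i0) := by
    have h := measure_iUnion (μ := volume) hdisj hDm
    rw [tsum_fintype] at h
    rw [← h]
    exact (measure_mono hsub).trans (measure_union_le _ _)
  have hDi0 : volume (D i0) = 0 := by
    have : D i0 = ∅ := by
      ext w
      simp only [Set.mem_empty_iff_false, iff_false]
      intro hw
      have h2 := (hmem i0 w hw).1
      have h3 : (0 : ℝ) < x i0 := h2.1.trans h2.2
      linarith
    rw [this, measure_empty]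
  have h2 : ∑ i, volume.real (D i) ≤ volume.real (K ∩ {z | ∀ j, 0 ≤ z j}) +
      volume.real (E K x i0) := by
    have := ENNReal.toReal_mono (ENNReal.add_ne_top.2 ⟨hfin, hfinE⟩) h1
    rw [ENNReal.toReal_sum, ENNReal.toReal_add hfin hfinE] at this
    · exact this
    · intro i _
      refine ((measure_mono ((Set.subset_iUnion D i).trans hsub)).trans_lt ?_).ne
      exact (measure_union_le _ _).trans_lt (ENNReal.add_lt_top.2 ⟨hfin.lt_top, hfinE.lt_top⟩)
  have hn : (0 : ℝ) < (n : ℝ) + 1 := by positivity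
  have h3 : ∀ i, i ≠ i0 → volume.real (D i) =
      x i / (n + 1) * volume.real (hsec i K ∩ {z | ∀ j, 0 ≤ z j}) := by
    intro i hi
    rw [measureReal_def, hvol i hi, ENNReal.toReal_mul,
      ENNReal.toReal_ofReal (div_nonneg (hx0 i hi) hn.le), measureReal_def]
  have h4 : volume.real (E K x i0) =
      -x i0 / (n + 1) * volume.real (hsec i0 K ∩ {z | ∀ j, 0 ≤ z j}) := by
    rw [measureReal_def, hEv, ENNReal.toReal_mul,
      ENNReal.toReal_ofReal (div_nonneg (by linarith) hn.le), measureReal_def]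
  have h5 : volume.real (D i0) = 0 := by rw [measureReal_def, hDi0]; rfl
  rw [← Finset.add_sum_erase _ _ (Finset.mem_univ i0), h5, zero_add, h4] at h2
  rw [← Finset.add_sum_erase _ _ (Finset.mem_univ i0)]
  have h6 : ∑ i ∈ Finset.univ.erase i0, x i * volume.real (hsec i K ∩ {z | ∀ j, 0 ≤ z j}) =
      ((n : ℝ) + 1) * ∑ i ∈ Finset.univ.erase i0, volume.real (D i) := by
    rw [Finset.mul_sum]
    refine Finset.sum_congr rfl fun i hi => ?_
    rw [h3 i (Finset.ne_of_mem_erase hi)]
    field_simp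
  rw [h6]
  have h7 := mul_le_mul_of_nonneg_left h2 hn.le
  have h8 : ((n : ℝ) + 1) * (volume.real (K ∩ {z | ∀ j, 0 ≤ z j}) +
      -x i0 / (n + 1) * volume.real (hsec i0 K ∩ {z | ∀ j, 0 ≤ z j})) =
      ((n : ℝ) + 1) * volume.real (K ∩ {z | ∀ j, 0 ≤ z j}) -
        x i0 * volume.real (hsec i0 K ∩ {z | ∀ j, 0 ≤ z j}) := by
    field_simp
    ring
  rw [h8] at h7
  linarith

end Vale.Agent.P248
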